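import Vale.Agent.P183CR.Abs

/-!
P183: Sylow subgroups, opposite pairs and the Frattini argument for split BN-pairs.
-/

namespace Vale.Agent.P183BD

open Subgroup Vale.Agent.P240.H195 Vale.Agent.P183CR

variable {L : Type*} [Group L] [Finite L] {p : ℕ} {B N U : Subgroup L} {S : Set L}

lemma eq_U_of_le (h : SBP p B N U S) {P : Subgroup L} (hP : IsPGroup p P) (hUP : U ≤ P) :
    P = U := by
  have : Fact p.Prime := ⟨h.prime⟩
  by_contra hne
  have hnil : Group.IsNilpotent P := hP.isNilpotent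
  have h1 : U.subgroupOf P < ⊤ := by
    rw [lt_top_iff_ne_top, Ne, subgroupOf_eq_top]
    exact fun hle => hne (le_antisymm hle hUP)
  obtain ⟨x, hx, hxU⟩ := SetLike.exists_of_lt (Group.normalizerCondition_of_isNilpotent _ h1)
  apply hxU
  have hxB : (x : L) ∈ B := by
    refine h.toSB.mem_B_of_norm h.prime fun u hu => ?_
    have h2 := (mem_normalizer_iff.1 (inv_mem hx) ⟨u, hUP hu⟩).1 hu
    simpa [mem_subgroupOf] using h2
  obtain ⟨j, hj⟩ := hP x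
  exact h.toSB.mem_U h.prime hxB (k := j) (by simpa using congrArg Subtype.val hj)

lemma conj_le (h : SBP p B N U S) {P : Subgroup L} (hP : IsPGroup p P) :
    ∃ g : L, ∀ x ∈ P, g⁻¹ * x * g ∈ U := by
  have : Fact p.Prime := ⟨h.prime⟩
  obtain ⟨P₀, hP₀⟩ := h.pgroup.exists_le_sylow
  have hU : (P₀ : Subgroup L) = U := eq_U_of_le h P₀.2 hP₀
  obtain ⟨P₁, hP₁⟩ := hP.exists_le_sylow
  obtain ⟨g, hg⟩ := MulAction.exists_smul_eq L P₁ P₀
  refine ⟨g⁻¹, fun x hx => ?_⟩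
  rw [← hU, ← hg, inv_inv]
  exact ⟨x, hP₁ hx, rfl⟩

omit [Finite L] in
lemma inj_conj {X : Type*} [Group X] {ι : X →* L} (hι : Function.Injective ι) {V : Subgroup X}
    {g : L} (hg : ∀ x ∈ V, g⁻¹ * ι x * g ∈ U) :
    Function.Injective fun x : V => (⟨_, hg x x.2⟩ : U) := by
  intro x y hxy
  have h1 : g⁻¹ * ι x * g = g⁻¹ * ι y * g := congrArg Subtype.val hxy
  exact Subtype.ext (hι (by simpa using h1))

lemma onto_conj {X : Type*} [Group X] {ι : X →* L} (hι : Function.Injective ι) {V : Subgroup X}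
    {g : L} (hg : ∀ x ∈ V, g⁻¹ * ι x * g ∈ U) (hc : Nat.card U ≤ Nat.card V) {u : L} (hu : u ∈ U) :
    ∃ x ∈ V, g⁻¹ * ι x * g = u := by
  have hb := (inj_conj hι hg).bijective_of_nat_card_le hc
  obtain ⟨x, hx⟩ := hb.2 ⟨u, hu⟩
  exact ⟨x, x.2, congrArg Subtype.val hx⟩

lemma opp_form (h : SBP p B N U S) {n₀ g : L} (hn₀ : h.toBN0.Long n₀)
    (ho : ∀ x ∈ U, g⁻¹ * x * g ∈ U → x = 1) : ∃ u ∈ U, ∃ b ∈ B, g = u * n₀ * b := by
  obtain ⟨n, hn, a, ha, b, hb, rfl⟩ := h.bruhat g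
  have h1 : h.toBN0.Long n⁻¹ := by
    refine h.long_of_opp (inv_mem hn) fun x hx hnx => ?_
    have h2 := ho _ (h.normal a ha x hx) (by
      have e : (a * n * b)⁻¹ * (a * x * a⁻¹) * (a * n * b) = b⁻¹ * (n⁻¹ * x * n⁻¹⁻¹) * b := by
        group
      rw [e]
      exact h.toSB.norm_U' hb hnx)
    have e : x = a⁻¹ * (a * x * a⁻¹) * a := by group
    rw [e, h2]
    simp
  have h2 := h.toBN0.long_inv h1
  rw [inv_inv] at h2
  obtain ⟨u, hu, t, htB, htN, rfl⟩ := h.split a ha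
  refine ⟨u, hu, _, mul_mem (mul_mem (h.norm' hn₀.1 htB htN) (h.long_unique hn₀ h2)) hb, ?_⟩
  group

lemma torus_mem (h : SBP p B N U S) {n₀ x : L} (hn₀ : h.toBN0.Long n₀) (hx : x ∈ B)
    (hx' : n₀⁻¹ * x * n₀ ∈ B) : x ∈ N := by
  obtain ⟨u, hu, t, htB, htN, rfl⟩ := h.split x hx
  have h1 : n₀⁻¹ * u * n₀ ∈ B := by
    have e : n₀⁻¹ * u * n₀ = n₀⁻¹ * (u * t) * n₀ * (n₀⁻¹ * t * n₀)⁻¹ := by group
    rw [e]
    exact mul_mem hx' (inv_mem (h.norm' hn₀.1 htB htN))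
  have h2 := h.opp_of_long (h.toBN0.long_inv hn₀) hu
    (by rw [inv_inv]; exact h.toSB.conj_U' h.prime hu h1)
  rwa [h2, one_mul]

section two
variable {X : Type*} [Group X] [Finite X] {B' N' U' : Subgroup X} {S' : Set X}

omit [Finite X] in
lemma exists_conj (h : SBP p B N U S) (h' : SBP p B' N' U' S') (ι : X →* L) :
    ∃ g : L, ∀ x ∈ U', g⁻¹ * ι x * g ∈ U := by
  obtain ⟨g, hg⟩ := conj_le h (h'.pgroup.map ι)
  exact ⟨g, fun x hx => hg _ ⟨x, hx, rfl⟩⟩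

/-- if the Sylow subgroups have the same order, opposite pairs correspond -/
lemma conj_pair (h : SBP p B N U S) (h' : SBP p B' N' U' S') {ι : X →* L}
    (hι : Function.Injective ι) (hc : Nat.card U ≤ Nat.card U') {n₀ : L} (hn₀ : h.toBN0.Long n₀)
    {m₀ : X} (hm₀ : h'.toBN0.Long m₀) : ∃ g : L, (∀ x ∈ U', g⁻¹ * ι x * g ∈ U) ∧
      ∀ x ∈ U', n₀⁻¹ * (g⁻¹ * ι (m₀ * x * m₀⁻¹) * g) * n₀ ∈ U := by
  obtain ⟨g, hg⟩ := exists_conj h h' ι
  obtain ⟨u, hu, b, hb, e⟩ := opp_form h hn₀ (g := g⁻¹ * ι m₀ * g) (fun x hx hx' => by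
    obtain ⟨y, hy, rfl⟩ := onto_conj hι hg hc hx
    obtain ⟨z, hz, hz'⟩ := onto_conj hι hg hc hx'
    have h1 : ι z = ι (m₀⁻¹ * y * m₀⁻¹⁻¹) := by
      have e : ι z = g * (g⁻¹ * ι z * g) * g⁻¹ := by group
      rw [e, hz']
      simp only [map_mul, map_inv]
      group
    have h2 := h'.opp_of_long (h'.toBN0.long_inv hm₀) hy (hι h1 ▸ hz)
    simp [h2])
  refine ⟨g * u, fun x hx => ?_, fun x hx => ?_⟩
  · have := h.toSB.norm_U' (h.le hu) (hg x hx)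
    simpa [mul_assoc] using this
  · have e2 : n₀⁻¹ * ((g * u)⁻¹ * ι (m₀ * x * m₀⁻¹) * (g * u)) * n₀ =
        n₀⁻¹ * u⁻¹ * (g⁻¹ * ι m₀ * g) * (g⁻¹ * ι x * g) * (g⁻¹ * ι m₀ * g)⁻¹ * u * n₀ := by
      simp only [map_mul, map_inv]
      group
    rw [e2, e]
    have := h.normal b hb _ (hg x hx)
    convert this using 1
    group

end two

end Vale.Agent.P183BD
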