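import Vale.Agent.P183CH2.Defs
import Vale.Agent.P183CH3.Sg
import Vale.Agent.P183CR.Basic

/-!
P183: what the glue needs from the blocks on fixed points and on the torus.
-/

namespace Vale.Agent.P183BD

open Subgroup Vale.Agent.P183CH Vale.Agent.P183CH3 Vale.Agent.P183CR

variable {R : RS} {k : Type} [Field k] {G : Type} [Group G]

/-- representatives in `K` of the longest elements for the orbits of `π` -/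
def RK (Γ : RG R k G) (π : Equiv.Perm (Fin R.r)) (K : Subgroup G) : Set K :=
  {n | ∃ i w, R.Lg {j | π.SameCycle i j} w ∧ Γ.Rep n.1 w}

/-- the series of `U ∩ K` given by the orbits of positive roots -/
structure Ser {Γ : RG R k G} (hΓ : Γ.Ok) (p : ℕ) (π : Equiv.Perm (Fin R.r)) (a : Fin R.r → ℕ)
    (K : Subgroup G) (m : ℕ) (γ : ℕ → R.Q) (S : ℕ → Set R.Q) (κ : ℕ → G → k) : Prop where
  le : m ≤ R.Φ.card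
  zero : Γ.X (S 0) = ⊥
  top : Γ.X (S m) = Γ.U
  mono : ∀ i < m, Γ.X (S i) ≤ Γ.X (S (i + 1))
  mem : ∀ i < m, γ i ∈ R.Pos
  cover : ∀ δ ∈ R.Pos, ∃ i < m, ∃ l, δ = (rho R p π a)^[l] (γ i)
  ne : ∀ i < m, ∀ j < m, ∀ l, γ i = (rho R p π a)^[l] (γ j) → i = j
  add : ∀ i < m, ∀ x ∈ Γ.X (S (i + 1)) ⊓ K, ∀ y ∈ Γ.X (S (i + 1)) ⊓ K,
    κ i (x * y) = κ i x + κ i y
  ker : ∀ i < m, ∀ x ∈ Γ.X (S (i + 1)) ⊓ K, κ i x = 0 ↔ x ∈ Γ.X (S i)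
  conj : ∀ i < m, ∀ t ∈ Γ.T ⊓ K, ∀ x ∈ Γ.X (S (i + 1)) ⊓ K,
    κ i (t * x * t⁻¹) = hΓ.chi (γ i) t * κ i x
  line : ∀ i < m, ∀ x ∈ Γ.X (S (i + 1)) ⊓ K, ∀ y ∈ Γ.X (S (i + 1)) ⊓ K,
    κ i x ^ p ^ lQ R p π a (γ i) * κ i y = κ i x * κ i y ^ p ^ lQ R p π a (γ i)
  nz : ∀ i < m, ∃ x ∈ Γ.X (S (i + 1)) ⊓ K, κ i x ≠ 0

/-- Target of block CH3. -/
def CH3T : Prop :=
  ∀ (R : RS) (p : ℕ) [Fact p.Prime] (G : Type) [Group G]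
    (Γ : RG R (AlgebraicClosure (ZMod p)) G) (σ : G →* G) π a e f d, R.Ok → ∀ hΓ : Γ.Ok,
    Γ.St p σ π a e f d → Tw R p π a e f ∧
      SBA p (Γ.Bo.subgroupOf (fixP p σ)) (Γ.N.subgroupOf (fixP p σ))
        (Γ.U.subgroupOf (fixP p σ)) (RK Γ π (fixP p σ)) ∧
      (∃ m γ S κ, Ser hΓ p π a (fixP p σ) m γ S κ) ∧
      (∀ t ∈ Γ.T, ∀ γ, hΓ.chi γ (σ t) = hΓ.chi (sg R p π a γ) t) ∧
      ∀ t ∈ Γ.T, σ^[e] t = t ^ p ^ f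

/-- Target of block CH4. -/
def CH4T : Prop :=
  ∀ (R : RS) (Λ : Finset R.Q), R.Ok → ∃ C q₀ : ℕ, ∀ (p : ℕ) [Fact p.Prime] (G : Type) [Group G]
    (Γ : RG R (AlgebraicClosure (ZMod p)) G) (σ : G →* G) π a e f d, ∀ hΓ : Γ.Ok,
    Γ.St p σ π a e f d → q₀ < p ^ f →
      (∀ l ∈ Λ, l ≠ 0 → ∃ t ∈ Γ.T ⊓ fixP p σ, hΓ.chi l t ≠ 1) ∧
      (∀ γ ∈ R.Φ, ∀ δ ∈ R.Φ, ∀ l : ℕ,
        (∀ t ∈ Γ.T ⊓ fixP p σ, hΓ.chi γ t = hΓ.chi δ t ^ p ^ l) →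
          ∃ j, γ = (rho R p π a)^[j] δ) ∧
      ∀ γ ∈ R.Φ, p ^ lQ R p π a γ - 1 ≤
        C * Set.ncard (hΓ.chi γ '' ((Γ.T ⊓ fixP p σ : Subgroup G) : Set G))

end Vale.Agent.P183BD
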