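import Vale.Agent.P183BD.Tree

/-!
P183: no deep tree of nodes of Lie type.
-/

namespace Vale.Agent.P183BD

open Subgroup Matrix Vale.Agent.P183A Vale.Agent.P183NK Vale.Agent.P183CR

variable {G : Type} [Group G] [Finite G] {H T x b y X : Subgroup G} {c p f n e g : ℕ}
  [Fact p.Prime] {ρ : EE H y →* Matrix (Fin n) (Fin n) (kk p)} {B M U : Subgroup (EE H y)}
  {R : Set (EE H y)} {θ : Matrix (Fin n) (Fin n) (kk p) →+* Matrix (Fin n) (Fin n) (kk p)}

/-- the data of a node of Lie type inside the top -/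
lemma node_data (hR : Reg H T x b) (hy : y ≤ b) (hL : LD c p f n e ρ B M U R) (hX : x ≤ X)
    (hs : Submodule.span (kk p) (ρ '' (EE H X).subgroupOf (EE H y)) = ⊤) {w : Subgroup G}
    (h1 : X ≤ w) (h2 : w ≤ y) (hw : PhiL c (EE H w)) :
    ∃ (f' n' e' : ℕ) (ρ' : EE H w →* Matrix (Fin n') (Fin n') (kk p))
      (B' M' U' : Subgroup (EE H w)) (R' : Set (EE H w)), LD c p f' n' e' ρ' B' M' U' R' ∧
      c * c + 2 < p ^ f' ∧
      ∀ t ∈ (EE H w).subgroupOf (EE H y), trace (ρ t) ^ p ^ (f' * e') = trace (ρ t) := by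
  have nw := hR.1.nomod (hX.trans h1) (h2.trans hy)
  have hle := EE_mono nw (hR.1.nomod ((hX.trans h1).trans h2) hy) h2
  have := (hR.2.2.2 w (hX.trans h1) (h2.trans hy)).1
  obtain ⟨f', n', e', ρ', B', M', U', R', hL', hq⟩ := lie_node hL.dim hw
    (ρ.comp (inclusion hle)) (hL.inj.comp (inclusion_injective hle))
  refine ⟨f', n', e', ρ', B', M', U', R', hL', hq, fun t ht => ?_⟩
  refine trace_pow hL'.sba (ρ := ρ.comp (inclusion hle)) ⟨hL.full.1, ?_⟩ hL'.exp ⟨t, ht⟩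
  rw [range_incl, eq_top_iff, ← hs]
  exact Submodule.span_mono (Set.image_mono (comap_mono
    (EE_mono (hR.1.nomod hX ((h1.trans h2).trans hy)) nw h1)))

/-- above a node with the full field the tree is shallow -/
lemma height {m r : ℕ} (hm : 0 < m) (hR : Reg H T x b) (hy : y ≤ b) (hL : LD c p f n e ρ B M U R)
    (hX : x ≤ X) (hF : Fr p g (ρ '' (EE H X).subgroupOf (EE H y)) θ) {z b' : Subgroup G}
    (h1 : X ≤ z) (h2 : b' ≤ y) (hr0 : 0 < r)
    (hb : (EE H b').subgroupOf (EE H y) ≤ perSub θ ρ r) {P : Subgroup G → Subgroup G → Prop}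
    (hP : ∀ u w, P u w → PhiL c (EE H w)) (hT : MT m P (c * c * (4 * c) + 1) z b') :
    ∃ j, (EE H z).subgroupOf (EE H y) ≤ perSub θ ρ j ∧ ¬ r ∣ j := by
  by_contra hcon
  push Not at hcon
  have hp := (Fact.out : p.Prime).one_lt
  have nm : ∀ v, z ≤ v → v ≤ b' → NoMod H v := fun v k1 k2 =>
    hR.1.nomod (hX.trans (h1.trans k1)) (k2.trans (h2.trans hy))
  have h3 := mt_grow hm (fun K => Nat.card (EE H K) ^ (4 * c)) (p ^ (g * r)) (lo := z) (hi := b')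
    (P := P) (fun u v k1 k2 k3 => Nat.pow_le_pow_left (card_le_of_le
      (EE_mono (nm u k1 (k2.trans k3)) (nm v (k1.trans k2) k3) k2)) _) (by
      intro v u w k1 k2 k3 k4
      have nv := nm v k1 (k2.le.trans k3)
      have nw := nm w (k1.trans k2.le) k3
      have hvw := EE_mono nv nw k2.le
      obtain ⟨f', n', e', ρ', B', M', U', R', hL', hq, htr⟩ := node_data hR hy hL hX hF.span
        (h1.trans (k1.trans k2.le)) (k3.trans h2) (hP u w k4)
      obtain ⟨j, hj, hfix⟩ := hF.fix_of_trace (comap_mono (EE_mono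
        (hR.1.nomod hX (h1.trans (hT.lt.le.trans (h2.trans hy)))) nw
        (h1.trans (k1.trans k2.le)))) htr
      have k5 := hcon j ((comap_mono (EE_mono (nm z le_rfl hT.lt.le) nw
        (k1.trans k2.le))).trans hfix)
      have k6 : g * r ≤ f' * c := (Nat.le_of_dvd (Nat.mul_pos hL'.fpos hL'.epos)
        (hj ▸ Nat.mul_dvd_mul_left g k5)).trans (Nat.mul_le_mul_left _ hL'.ele)
      have := (hR.2.2.2 w (hX.trans (h1.trans (k1.trans k2.le))) (k3.trans (h2.trans hy))).1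
      have k7 := hL'.pow_le_index (K := (EE H v).subgroupOf (EE H w)) (fun e => k2.not_ge
        (le_of_EE_le nw nv.lt.le ((subgroupOf_eq_top.1 e).trans (EE_le nv)))) hq
      rw [← ((EE H v).subgroupOf (EE H w)).card_mul_index,
        Nat.card_congr (subgroupOfEquivOfLe hvw).toEquiv, mul_pow]
      refine Nat.mul_le_mul_left _ ((Nat.pow_le_pow_right hp.le k6).trans ?_)
      rw [pow_mul, pow_mul]
      exact Nat.pow_le_pow_left k7 _) _ z b' le_rfl le_rfl hT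
  have h4 := hF.card_le hL.inj hr0 hb
  rw [Nat.card_congr (subgroupOfEquivOfLe (EE_mono (nm b' hT.lt.le le_rfl)
    (hR.1.nomod (hX.trans (h1.trans (hT.lt.le.trans h2))) hy) h2)).toEquiv] at h4
  have hD : 1 < p ^ (g * r) := Nat.one_lt_pow (Nat.mul_pos hF.pos hr0).ne' hp
  have h5 : Nat.card (EE H b') ^ (4 * c) ≤ (p ^ (g * r)) ^ (c * c * (4 * c)) := by
    rw [pow_mul _ (c * c)]
    exact Nat.pow_le_pow_left (h4.trans (Nat.pow_le_pow_right hD.le
      (Nat.mul_le_mul hL.dim hL.dim))) _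
  have h6 : 1 ≤ Nat.card (EE H z) ^ (4 * c) := Nat.one_le_pow _ _ Nat.card_pos
  have h7 := ((Nat.mul_le_mul_right _ h6).trans h3).trans h5
  rw [one_mul, Nat.pow_le_pow_iff_right hD] at h7
  omega

theorem fthm (c : ℕ) :
    FThm (PhiL c) (GenLie c) (c * c + c + 5) (c * c * (4 * c) + 1 + 1 + c * c + 1 + 1) := by
  rintro G _ _ H T x b hR ⟨a₁, b₁, c₁, z₁, u₁, k1, -, k3, -, k5⟩
  have hm : 0 < c * c + c + 5 := by omega
  obtain ⟨-, l2, ⟨-, p, f, n, e, hp, ρ, B, M, U, R, hL, hs⟩, l4, l5⟩ := k5 ⟨0, hm⟩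
  have hy := l5.lt.le.trans k3
  have hu := k1.trans l2
  have huy := l4.lt.le
  generalize z₁ ⟨0, hm⟩ = y at *
  generalize u₁ ⟨0, hm⟩ = u at *
  obtain ⟨a₂, b₂, c₂, z₂, u₂, k1, -, k3, -, k5⟩ := l4
  obtain ⟨-, l2, ⟨hΦ, -⟩, l4, l5⟩ := k5 ⟨0, hm⟩
  have h0 := (k1.trans l2).trans l4.lt.le
  have h0y := l5.lt.le.trans k3
  generalize z₂ ⟨0, hm⟩ = X₀ at *
  have nm : ∀ v, u ≤ v → v ≤ y → NoMod H v := fun v k1 k2 =>
    hR.1.nomod (hu.trans k1) (k2.trans hy)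
  have ny := nm y huy le_rfl
  have mono : ∀ v w, u ≤ v → v ≤ w → w ≤ y → EE H v ≤ EE H w := fun v w k1 k2 k3 =>
    EE_mono (nm v k1 (k2.trans k3)) (nm w (k1.trans k2) k3) k2
  have full : ∀ v, u ≤ v → v ≤ y →
      Submodule.span (kk p) (ρ '' (EE H v).subgroupOf (EE H y)) = ⊤ := fun v k1 k2 =>
    top_le_iff.1 (hs.ge.trans (Submodule.span_mono (Set.image_mono
      (comap_mono (mono u v le_rfl k1 k2)))))
  obtain ⟨f₀, n₀, e₀, ρ₀, B₀, M₀, U₀, R₀, hL₀, -, -⟩ := node_data hR hy hL hu hs h0 h0y hΦ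
  obtain ⟨m₀, hm₀⟩ := hL₀.sba.toBN0.exists_long
  have hle₀ := mono X₀ y h0 h0y le_rfl
  obtain ⟨S, hS⟩ := hL.toRD.torus hL₀.sba (ι := inclusion hle₀)
    ⟨hL.full.1, by rw [range_incl]; exact full _ h0 h0y⟩ hm₀
  let W : Subgroup G → Submodule (kk p) (Matrix (Fin n) (Fin n) (kk p)) := fun K =>
    Submodule.span (kk p) (ρ '' (S ⊓ (EE H K).subgroupOf (EE H y) : Subgroup (EE H y)))
  have hW : ∀ v w, X₀ ≤ v → v ≤ w → w ≤ y → W v ≤ W w := fun v w k1 k2 k3 =>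
    Submodule.span_mono (Set.image_mono (inf_le_inf_left S
      (comap_mono (mono v w (h0.trans k1) k2 k3))))
  obtain ⟨X, Z, q1, q2, q3, q4⟩ := mt_desc hm (fun K => Module.finrank (kk p) (W K)) (lo := X₀)
    (hi := y) (fun v w k1 k2 k3 => Submodule.finrank_mono (hW v w k1 k2 k3)) _ (c * c) X₀ b₂
    le_rfl k3 ((Submodule.finrank_le _).trans (by
      simpa [Module.finrank_matrix] using Nat.mul_le_mul hL.dim hL.dim)) l5
  have hZy := q2.trans k3
  have hXZ := q3.lt.le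
  have hWeq : W X = W Z := Submodule.eq_of_le_of_finrank_le (hW X Z q1 hXZ hZy) q4
  have huX := h0.trans q1
  have htr := trace_pow hL.sba hL.full hL.exp
  obtain ⟨g, θ, hF⟩ := exists_fr (p := p) (X := ρ '' (EE H X).subgroupOf (EE H y)) (by
      rintro _ ⟨s, hs, rfl⟩ _ ⟨t, ht, rfl⟩
      exact ⟨s * t, mul_mem hs ht, map_mul _ _ _⟩) ⟨1, one_mem _, map_one _⟩
    (full X huX (hXZ.trans hZy)) (Nat.mul_pos hL.fpos hL.epos) (by
      rintro _ ⟨s, -, rfl⟩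
      exact htr s)
  obtain ⟨a', b', col, z, u', k1, k2, k3, hHS, k5⟩ := q3
  have hby := k3.trans hZy
  have haz : ∀ i, a' < z i := fun i => (k5 i).2.1.trans_lt (k5 i).2.2.2.1.lt
  have hzb : ∀ i, z i < b' := fun i => (k5 i).2.2.2.2.lt
  have hXz : ∀ i, X ≤ z i := fun i => k1.trans (haz i).le
  have hzy : ∀ i, z i ≤ y := fun i => (hzb i).le.trans hby
  have nz : ∀ i, NoMod H (z i) := fun i => nm _ (huX.trans (hXz i)) (hzy i)
  have hub := huX.trans (k1.trans k2.le)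
  have nb := nm b' hub hby
  obtain ⟨j₀, hj₀, hfix⟩ := hF.fix_of_trace (Z := ⊤) le_top fun s _ => htr s
  obtain ⟨r, hr0, hr⟩ := exists_order ((EE H b').subgroupOf (EE H y)) (j := j₀)
    (Nat.pos_of_ne_zero fun e => by
      have := Nat.mul_pos hL.fpos hL.epos
      rw [hj₀, e, mul_zero] at this
      omega) (le_top.trans hfix)
  refine four (S := S) (Eb := (EE H b').subgroupOf (EE H y)) le_rfl hL.full.1 hL.dim hL.inj hF
    (actH (nm_H_EE ny)) (fun i => (EE H (z i)).subgroupOf (EE H y)) hS.comm hS.ord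
    (fun a => ?_) (fun i => ⟨comap_mono (mono _ _ huX (hXz i) (hzy i)),
      comap_mono (mono _ _ (huX.trans (hXz i)) (hzb i).le hby),
      fun a s hs => nm_H_EE (nz i) a a.2 s hs⟩) (fun i j hij => ?_) (fun s h1 h2 => ?_)
    (fun i s hs => ?_) (fun i j hij F₁ F₂ h1 h2 h3 h4 h5 h6 s h7 h8 h9 l t ht => ?_)
    (fun i => ?_) hr0 hr fun i => height hm hR hy hL (hu.trans huX) hF (hXz i) hby hr0
      ((hr r).2 dvd_rfl) (fun _ _ h => h.1) (k5 i).2.2.2.2
  · obtain ⟨t, ht, h⟩ := frattini hL₀.sba hm₀ hle₀ hS (nm_H_EE (nm _ h0 h0y)) (nm_H_EE ny) a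
    exact ⟨t, mono _ _ h0 q1 (hXZ.trans hZy) ht, h⟩
  · have h1 := (hHS _ _ (haz i) (hzb i) (haz j) (hzb j) (by rwa [(k5 i).1, (k5 j).1])).2
    have h2 := EE_sup (nz i) (nz j) (h1.symm ▸ nb)
    rw [h1] at h2
    rw [h2, subgroupOf_sup (mono _ _ (huX.trans (hXz i)) (hzy i) le_rfl)
      (mono _ _ (huX.trans (hXz j)) (hzy j) le_rfl)]
  · change ρ s ∈ W X
    rw [hWeq]
    exact Submodule.subset_span ⟨s, ⟨h1, mono _ _ hub k3 hZy h2⟩, rfl⟩
  · have h1 := (hR.2.2.2 (z i) (hu.trans (huX.trans (hXz i))) ((hzy i).trans hy)).2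
    have h2 : s.1 ∈ centralizer (EE H (z i) : Set G) ⊓ T := ⟨fun t ht => congrArg Subtype.val
      (hs ⟨t, mono _ _ (huX.trans (hXz i)) (hzy i) le_rfl ht⟩ ht), hR.2.1 (EE_mono ny
        (hR.1.nomod (hu.trans (huy.trans hy)) le_rfl) hy s.2)⟩
    rw [h1] at h2
    exact Subtype.ext h2
  · have hbT := mono _ _ hub hby le_rfl
    obtain ⟨v, v1, v2, v3⟩ := node_of_inv (nz i) nb (hzb i).le (nm_H_EE ny) hbT h1 h3 h5
    obtain ⟨w, w1, w2, w3⟩ := node_of_inv (nz j) nb (hzb j).le (nm_H_EE ny) hbT h2 h4 h6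
    have h10 := (hHS v w ((haz i).trans_le v1) v2 ((haz j).trans_le w1) w2 (by
      rwa [← hHS.col_eq (haz i) v1 v2, ← hHS.col_eq (haz j) w1 w2, (k5 i).1, (k5 j).1])).1
    have h11 : s.1 ∈ a' := h10 ▸ ⟨v3 s h7 (EE_le nb h9), w3 s h8 (EE_le nb h9)⟩
    exact nm_EE H (z l) s ((haz l).le h11) t ht
  · obtain ⟨f', n', e', ρ', B', M', U', R', hL', -, h1⟩ := node_data hR hy hL (hu.trans huX)
      hF.span (hXz i) (hzy i) (k5 i).2.2.1.1
    obtain ⟨t, ht, j, h2, h3, h4⟩ := hL'.big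
    have hle := mono _ _ (huX.trans (hXz i)) (hzy i) le_rfl
    obtain ⟨s, h5⟩ := hS.sub _ B' M' U' R' hL'.sba (inclusion hle)
      (inclusion (mono _ _ h0 (q1.trans (hXz i)) (hzy i))) rfl t ht
    refine ⟨f', e', j, _, hL'.fpos, hL'.epos, hL'.ele, h1, h5, (s * t * s⁻¹).2, h2, h3, ?_⟩
    rwa [orderOf_injective _ (inclusion_injective hle), ← MulAut.conj_apply,
      MulEquiv.orderOf_eq]

end Vale.Agent.P183BD
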