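import Vale.Agent.P183BD.Glue
import Vale.Agent.P183CH3.Main
import Vale.Agent.P183CH4.Main

/-!
The Lie type block without hypotheses.
-/

namespace Vale.Agent.P183BD

theorem absLie' : P183CH.AbsLie IsLie2 := absLie P183CH3.ch3t P183CH4.ch4t

end Vale.Agent.P183BD
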