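import Mathlib.LinearAlgebra.Matrix.Trace
import Mathlib.LinearAlgebra.Basis.VectorSpace
import Mathlib.Algebra.CharP.Frobenius
import Mathlib.Algebra.Polynomial.Roots
import Mathlib.LinearAlgebra.FiniteDimensional.Lemmas
import Mathlib.LinearAlgebra.Dimension.Constructions

/-!
P183: semilinear ring endomorphisms of matrix rings that fix a spanning monoid.
-/

namespace Vale.Agent.P183BD

open Matrix

variable {n : ℕ} {k : Type} [Field k] {X : Set (Matrix (Fin n) (Fin n) k)}

lemma eq_of_trace (hs : Submodule.span k X = ⊤) {a b : Matrix (Fin n) (Fin n) k}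
    (h : ∀ t ∈ X, trace (a * t) = trace (b * t)) : a = b := by
  rw [ext_iff_trace_mul_right]
  intro x
  have hx : x ∈ Submodule.span k X := hs ▸ Submodule.mem_top
  induction hx using Submodule.span_induction with
  | mem t ht => exact h t ht
  | zero => simp
  | add x y _ _ h1 h2 => rw [mul_add, mul_add, trace_add, trace_add, h1, h2]
  | smul c x _ h1 => rw [mul_smul_comm, mul_smul_comm, trace_smul, trace_smul, h1]

lemma exists_basis (hs : Submodule.span k X = ⊤) :
    ∃ b : Module.Basis (Fin (n * n)) k (Matrix (Fin n) (Fin n) k), ∀ i, b i ∈ X := by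
  obtain ⟨Y, hYX, hY, hli⟩ := exists_linearIndependent k X
  let b : Module.Basis Y k (Matrix (Fin n) (Fin n) k) := Module.Basis.mk hli (by
    rw [Subtype.range_coe_subtype, Set.ofPred_mem_eq, hY, hs])
  have : Fintype Y := FiniteDimensional.fintypeBasisIndex b
  have hc : Fintype.card Y = n * n := by
    rw [← Module.finrank_eq_card_basis b]
    simp [Module.finrank_matrix]
  let e : Y ≃ Fin (n * n) := Fintype.equivFinOfCardEq hc
  refine ⟨b.reindex e, fun i => ?_⟩
  rw [Module.Basis.reindex_apply, Module.Basis.mk_apply]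
  exact hYX (e.symm i).2

/-- a semilinear map is determined on a spanning set -/
lemma semi_ext (hs : Submodule.span k X = ⊤) {V : Type*} [AddCommGroup V] [Module k V]
    (φ : k →+* k) (f g : Matrix (Fin n) (Fin n) k →+ V) (hf : ∀ c a, f (c • a) = φ c • f a)
    (hg : ∀ c a, g (c • a) = φ c • g a) (h : ∀ t ∈ X, f t = g t) (x : Matrix (Fin n) (Fin n) k) :
    f x = g x := by
  have hx : x ∈ Submodule.span k X := hs ▸ Submodule.mem_top
  induction hx using Submodule.span_induction with
  | mem t ht => exact h t ht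
  | zero => simp
  | add x y _ _ h1 h2 => rw [map_add, map_add, h1, h2]
  | smul c x _ h1 => rw [hf, hg, h1]

theorem exists_theta (hX : ∀ x ∈ X, ∀ y ∈ X, x * y ∈ X) (h1 : 1 ∈ X)
    (hs : Submodule.span k X = ⊤) (φ : k →+* k) (hφ : ∀ t ∈ X, φ (trace t) = trace t) :
    ∃ θ : Matrix (Fin n) (Fin n) k →+* Matrix (Fin n) (Fin n) k,
      (∀ c a, θ (c • a) = φ c • θ a) ∧ ∀ t ∈ X, θ t = t := by
  obtain ⟨b, hb⟩ := exists_basis hs
  let θ : Matrix (Fin n) (Fin n) k →+ Matrix (Fin n) (Fin n) k :=
    { toFun := fun a => ∑ i, φ (b.repr a i) • b i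
      map_zero' := by simp
      map_add' := fun x y => by simp [add_smul, Finset.sum_add_distrib] }
  have hθ : ∀ a, θ a = ∑ i, φ (b.repr a i) • b i := fun _ => rfl
  have hsm : ∀ c a, θ (c • a) = φ c • θ a := by
    intro c a
    simp [hθ, Finset.smul_sum, smul_smul]
  have hbs : Submodule.span k (Set.range b) = ⊤ := b.span_eq
  have hfix : ∀ t ∈ X, θ t = t := by
    intro t ht
    refine eq_of_trace hbs ?_
    rintro _ ⟨l, rfl⟩
    rw [← hφ _ (hX _ ht _ (hb l))]
    conv_rhs => rw [← b.sum_repr t]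
    simp only [hθ, Finset.sum_mul, smul_mul_assoc, trace_sum, trace_smul, smul_eq_mul, map_sum,
      map_mul, hφ _ (hX _ (hb _) _ (hb l))]
  have hmul : ∀ x y, θ (x * y) = θ x * θ y := by
    have key : ∀ t ∈ X, ∀ y, θ (t * y) = t * θ y := fun t ht =>
      semi_ext hs φ (θ.comp (AddMonoidHom.mulLeft t)) ((AddMonoidHom.mulLeft t).comp θ)
        (fun c a => by simp [hsm]) (fun c a => by simp [hsm])
        (fun u hu => by simp [hfix _ (hX _ ht _ hu), hfix _ hu])
    intro x y
    exact semi_ext hs φ (θ.comp (AddMonoidHom.mulRight y)) ((AddMonoidHom.mulRight (θ y)).comp θ)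
      (fun c a => by simp [hsm]) (fun c a => by simp [hsm])
      (fun u hu => by simp [key _ hu, hfix _ hu]) x
  exact ⟨{ θ with map_one' := hfix 1 h1, map_mul' := hmul }, hsm, hfix⟩

section theta
variable {φ : k →+* k} {θ : Matrix (Fin n) (Fin n) k →+* Matrix (Fin n) (Fin n) k}

lemma trace_theta (hs : Submodule.span k X = ⊤)
    (hφ : ∀ t ∈ X, φ (trace t) = trace t) (hθ : ∀ c a, θ (c • a) = φ c • θ a)
    (hf : ∀ t ∈ X, θ t = t) (a : Matrix (Fin n) (Fin n) k) : trace (θ a) = φ (trace a) :=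
  semi_ext hs φ ((traceAddMonoidHom (Fin n) k).comp θ.toAddMonoidHom)
    (φ.toAddMonoidHom.comp (traceAddMonoidHom (Fin n) k))
    (fun c a => by simp [hθ]) (fun c a => by simp) (fun t ht => by simp [hf t ht, hφ t ht]) a

lemma theta_fix (hs : Submodule.span k X = ⊤)
    (hφ : ∀ t ∈ X, φ (trace t) = trace t) (hθ : ∀ c a, θ (c • a) = φ c • θ a)
    (hf : ∀ t ∈ X, θ t = t) {a : Matrix (Fin n) (Fin n) k}
    (ha : ∀ t ∈ X, φ (trace (a * t)) = trace (a * t)) : θ a = a := by
  refine eq_of_trace hs fun t ht => ?_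
  rw [← ha t ht, ← trace_theta hs hφ hθ hf, map_mul, hf t ht]

lemma theta_inj (hs : Submodule.span k X = ⊤)
    (hφ : ∀ t ∈ X, φ (trace t) = trace t) (hθ : ∀ c a, θ (c • a) = φ c • θ a)
    (hf : ∀ t ∈ X, θ t = t) : Function.Injective θ := by
  intro a b hab
  refine eq_of_trace hs fun t ht => φ.injective ?_
  rw [← trace_theta hs hφ hθ hf, ← trace_theta hs hφ hθ hf, map_mul, map_mul, hab]

lemma semi_pow (hθ : ∀ c a, θ (c • a) = φ c • θ a) (j : ℕ) (c : k)
    (a : Matrix (Fin n) (Fin n) k) : (θ ^ j) (c • a) = (φ ^ j) c • (θ ^ j) a := by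
  induction j generalizing c a with
  | zero => rfl
  | succ j ih =>
    rw [pow_succ, pow_succ, RingHom.mul_def, RingHom.mul_def, RingHom.comp_apply,
      RingHom.comp_apply, RingHom.comp_apply, hθ, ih]

lemma fix_pow {R : Type*} [Semiring R] {θ : R →+* R} {t : R} (h : θ t = t) (j : ℕ) :
    (θ ^ j) t = t := by
  induction j with
  | zero => rfl
  | succ j ih => rw [pow_succ, RingHom.mul_def, RingHom.comp_apply, h, ih]

end theta

lemma frob_pow (p : ℕ) [ExpChar k p] (g j : ℕ) (x : k) :
    (iterateFrobenius k p g ^ j) x = x ^ p ^ (g * j) := by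
  induction j generalizing x with
  | zero => simp
  | succ j ih =>
    rw [pow_succ, RingHom.mul_def, RingHom.comp_apply, ih, iterateFrobenius_def, ← pow_mul,
      ← pow_add]
    congr 2
    ring

lemma card_fixed_le {Q : ℕ} (hQ : 1 < Q) :
    Finite {x : k // x ^ Q = x} ∧ Nat.card {x : k // x ^ Q = x} ≤ Q := by
  classical
  have hd : (Polynomial.X ^ Q - Polynomial.X : Polynomial k).natDegree = Q := by
    rw [Polynomial.natDegree_sub_eq_left_of_natDegree_lt] <;> simp [hQ]
  have h0 : (Polynomial.X ^ Q - Polynomial.X : Polynomial k) ≠ 0 := by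
    intro h
    rw [h, Polynomial.natDegree_zero] at hd
    omega
  let f : {x : k // x ^ Q = x} → (Polynomial.X ^ Q - Polynomial.X : Polynomial k).roots.toFinset :=
    fun x => ⟨x.1, by simp [h0, x.2]⟩
  have hf : Function.Injective f := fun x y h =>
    Subtype.ext (congrArg (fun z => z.1) h : (f x).1 = (f y).1)
  refine ⟨Finite.of_injective f hf, (Nat.card_le_card_of_injective f hf).trans ?_⟩
  rw [Nat.card_eq_fintype_card, Fintype.card_coe]
  exact (Multiset.toFinset_card_le _).trans ((Polynomial.card_roots' _).trans hd.le)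

/-- the number of matrices whose traces against a spanning set lie in a finite field -/
lemma card_le_of_trace (hs : Submodule.span k X = ⊤) {Q : ℕ} (hQ : 1 < Q) {Y : Type*}
    (ρ : Y → Matrix (Fin n) (Fin n) k) (hρ : Function.Injective ρ)
    (h : ∀ y, ∀ t ∈ X, trace (ρ y * t) ^ Q = trace (ρ y * t)) : Nat.card Y ≤ Q ^ (n * n) := by
  obtain ⟨b, hb⟩ := exists_basis hs
  obtain ⟨h1, h2⟩ := card_fixed_le (k := k) hQ
  let f : Y → Fin (n * n) → {x : k // x ^ Q = x} := fun y i => ⟨_, h y _ (hb i)⟩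
  have hf : Function.Injective f := by
    intro x y hxy
    refine hρ (eq_of_trace b.span_eq ?_)
    rintro _ ⟨i, rfl⟩
    exact congrArg Subtype.val (congrFun hxy i)
  refine (Nat.card_le_card_of_injective f hf).trans ?_
  rw [Nat.card_fun, Nat.card_eq_fintype_card (α := Fin (n * n)), Fintype.card_fin]
  exact Nat.pow_le_pow_left h2 _

/-- the number of matrices with entries in a finite field -/
lemma card_le_of_entries {Q : ℕ} (hQ : 1 < Q) {Y : Type*}
    (ρ : Y → Matrix (Fin n) (Fin n) k) (hρ : Function.Injective ρ)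
    (h : ∀ y i j, ρ y i j ^ Q = ρ y i j) : Nat.card Y ≤ Q ^ (n * n) := by
  obtain ⟨h1, h2⟩ := card_fixed_le (k := k) hQ
  let f : Y → Fin n × Fin n → {x : k // x ^ Q = x} := fun y i => ⟨_, h y i.1 i.2⟩
  have hf : Function.Injective f := by
    intro x y hxy
    refine hρ (Matrix.ext fun i j => ?_)
    exact congrArg Subtype.val (congrFun hxy (i, j))
  refine (Nat.card_le_card_of_injective f hf).trans ?_
  rw [Nat.card_fun, Nat.card_eq_fintype_card (α := Fin n × Fin n), Fintype.card_prod,
    Fintype.card_fin]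
  exact Nat.pow_le_pow_left h2 _

end Vale.Agent.P183BD
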