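import Mathlib.LinearAlgebra.Eigenspace.Pi
import Mathlib.LinearAlgebra.Eigenspace.Semisimple
import Mathlib.LinearAlgebra.Eigenspace.Triangularizable
import Mathlib.SetTheory.Cardinal.NatCard
import Mathlib.GroupTheory.Index
import Mathlib.FieldTheory.Separable
import Mathlib.GroupTheory.Perm.Fin
import Vale.Agent.P183BD.Tau

/-!
P183: weights of abelian groups of matrices of order prime to the characteristic.
-/

namespace Vale.Agent.P183BD

open Matrix Polynomial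

variable {n : ℕ} {k : Type} [Field k] [IsAlgClosed k]

section
variable {Γ : Type*} [Group Γ]

/-- the weights of `S` on the matrices -/
def Wt (ρ : Γ →* Matrix (Fin n) (Fin n) k) (S : Subgroup Γ) : Type _ :=
  {χ : S → k // ∃ a : Matrix (Fin n) (Fin n) k, a ≠ 0 ∧ ∀ s : S, ρ s * a = χ s • a}

theorem wt_facts (ρ : Γ →* Matrix (Fin n) (Fin n) k)
    (hρ : Function.Injective ρ) (S : Subgroup Γ) (hc : ∀ x ∈ S, ∀ y ∈ S, x * y = y * x)
    (ho : ∀ s ∈ S, ∃ m : ℕ, (m : k) ≠ 0 ∧ s ^ m = 1) : Finite (Wt ρ S) ∧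
      Nat.card (Wt ρ S) ≤ n * n ∧ ∀ s t : S, (∀ χ : Wt ρ S, χ.1 s = χ.1 t) → s = t := by
  classical
  let f : S → Module.End k (Matrix (Fin n) (Fin n) k) := fun s => LinearMap.mulLeft k (ρ s)
  have hcomm : ∀ s t, Commute (f s) (f t) := by
    intro s t
    ext1 a
    simp only [f, Module.End.mul_apply, LinearMap.mulLeft_apply, ← mul_assoc, ← map_mul]
    rw [hc _ s.2 _ t.2]
  have hss : ∀ s μ, (f s).maxGenEigenspace μ = (f s).eigenspace μ := by
    intro s μ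
    obtain ⟨m, hm, hsm⟩ := ho s s.2
    refine Module.End.IsFinitelySemisimple.maxGenEigenspace_eq_eigenspace
      (Module.End.IsSemisimple.isFinitelySemisimple
        (Module.End.isSemisimple_of_squarefree_aeval_eq_zero
          (separable_X_pow_sub_C (1 : k) hm one_ne_zero).squarefree ?_)) μ
    have h1 : ρ s ^ m = 1 := by rw [← map_pow, hsm, map_one]
    ext1 a
    simp [f, LinearMap.pow_mulLeft, h1]
  let W : (S → k) → Submodule k (Matrix (Fin n) (Fin n) k) := fun χ =>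
    ⨅ s, (f s).maxGenEigenspace (χ s)
  have hW : ∀ χ a, a ∈ W χ ↔ ∀ s : S, ρ s * a = χ s • a := by
    intro χ a
    simp only [W, hss, Submodule.mem_iInf, Module.End.mem_eigenspace_iff, f,
      LinearMap.mulLeft_apply]
  have hind : iSupIndep W := Module.End.independent_iInf_maxGenEigenspace_of_forall_mapsTo f
    fun i j μ => Module.End.mapsTo_maxGenEigenspace_of_comm (hcomm j i) μ
  have htop : ⨆ χ, W χ = ⊤ :=
    Module.End.iSup_iInf_maxGenEigenspace_eq_top_of_iSup_maxGenEigenspace_eq_top_of_commute f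
      (fun i j _ => hcomm i j) fun i => Module.End.iSup_maxGenEigenspace_eq_top _
  let _ : Fintype {χ // W χ ≠ ⊥} := hind.fintypeNeBotOfFiniteDimensional
  have hcard : Fintype.card {χ // W χ ≠ ⊥} ≤ n * n := by
    refine hind.subtype_ne_bot_le_finrank.trans ?_
    simp [Module.finrank_matrix]
  let e : Wt ρ S → {χ // W χ ≠ ⊥} := fun χ => ⟨χ.1, by
    obtain ⟨a, ha0, ha⟩ := χ.2
    exact (Submodule.ne_bot_iff _).2 ⟨a, (hW _ _).2 ha, ha0⟩⟩
  have he : Function.Injective e := fun a b h =>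
    Subtype.ext (congrArg (fun z => z.1) h : (e a).1 = (e b).1)
  refine ⟨Finite.of_injective e he, (Nat.card_le_card_of_injective e he).trans
    (by rwa [Nat.card_eq_fintype_card]), fun s t hst => Subtype.ext (hρ ?_)⟩
  have key : ∀ χ, W χ ≤ LinearMap.ker (LinearMap.mulLeft k (ρ s) - LinearMap.mulLeft k (ρ t)) := by
    intro χ a ha
    by_cases h0 : a = 0
    · rw [h0]
      exact Submodule.zero_mem _
    rw [LinearMap.mem_ker, LinearMap.sub_apply, LinearMap.mulLeft_apply, LinearMap.mulLeft_apply,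
      (hW _ _).1 ha, (hW _ _).1 ha, sub_eq_zero]
    exact congrArg (· • a) (hst ⟨χ, a, h0, (hW _ _).1 ha⟩)
  have h4 := (iSup_le key) (htop ▸ Submodule.mem_top : (1 : Matrix (Fin n) (Fin n) k) ∈ ⨆ χ, W χ)
  rwa [LinearMap.mem_ker, LinearMap.sub_apply, LinearMap.mulLeft_apply, LinearMap.mulLeft_apply,
    mul_one, mul_one, sub_eq_zero] at h4

omit [IsAlgClosed k] in
lemma Wt.mul {ρ : Γ →* Matrix (Fin n) (Fin n) k} {S : Subgroup Γ} (χ : Wt ρ S) (s t : S) :
    χ.1 (s * t) = χ.1 s * χ.1 t := by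
  obtain ⟨a, ha0, ha⟩ := χ.2
  refine smul_left_injective k ha0 ?_
  simp only [← ha, Subgroup.coe_mul, map_mul, mul_assoc]
  rw [ha t, mul_smul_comm, ha s, smul_smul, mul_comm]

omit [IsAlgClosed k] in
lemma Wt.one {ρ : Γ →* Matrix (Fin n) (Fin n) k} {S : Subgroup Γ} (χ : Wt ρ S) : χ.1 1 = 1 := by
  obtain ⟨a, ha0, ha⟩ := χ.2
  refine smul_left_injective k ha0 ?_
  simp [← ha]

omit [IsAlgClosed k] in
lemma Wt.pow {ρ : Γ →* Matrix (Fin n) (Fin n) k} {S : Subgroup Γ} (χ : Wt ρ S) (s : S) (j : ℕ) :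
    χ.1 (s ^ j) = χ.1 s ^ j := by
  induction j with
  | zero => simp [χ.one]
  | succ j ih => rw [pow_succ, χ.mul, ih, pow_succ]

/-- a semilinear ring endomorphism fixing `S` bounds the exponent of `S` -/
theorem pow_eq_self (ρ : Γ →* Matrix (Fin n) (Fin n) k)
    (hρ : Function.Injective ρ) (S : Subgroup Γ) (hc : ∀ x ∈ S, ∀ y ∈ S, x * y = y * x)
    (ho : ∀ s ∈ S, ∃ m : ℕ, (m : k) ≠ 0 ∧ s ^ m = 1)
    (φ : k →+* k) (Q : ℕ) (hφ : ∀ x, φ x = x ^ Q)
    (θ : Matrix (Fin n) (Fin n) k →+* Matrix (Fin n) (Fin n) k) (hinj : Function.Injective θ)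
    (hθ : ∀ c a, θ (c • a) = φ c • θ a) (hρβ : ∀ g ∈ S, θ (ρ g) = ρ g) :
    ∀ s ∈ S, s ^ Q ^ (n * n).factorial = s := by
  classical
  obtain ⟨hfin, hcard, hsep⟩ := wt_facts ρ hρ S hc ho
  let π : Wt ρ S → Wt ρ S := fun χ => ⟨fun s => φ (χ.1 s), by
    obtain ⟨a, ha0, ha⟩ := χ.2
    refine ⟨θ a, fun h => ha0 (hinj (by rw [h, map_zero])), fun s => ?_⟩
    rw [← hθ, ← ha s, map_mul, hρβ _ s.2]⟩
  have hπ : Function.Injective π := fun χ χ' h => Subtype.ext (funext fun s =>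
    φ.injective (congrFun (congrArg Subtype.val h) s))
  let π' : Equiv.Perm (Wt ρ S) := Equiv.ofBijective π (Finite.injective_iff_bijective.1 hπ)
  have hpow : π' ^ (n * n).factorial = 1 := by
    have := Fintype.ofFinite (Wt ρ S)
    obtain ⟨d, hd⟩ := Nat.factorial_dvd_factorial hcard
    rw [hd, pow_mul, Nat.card_eq_fintype_card, ← Fintype.card_perm, pow_card_eq_one, one_pow]
  have hit : ∀ (j : ℕ) (χ : Wt ρ S) (s : S), ((π' ^ j) χ).1 s = χ.1 s ^ Q ^ j := by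
    intro j
    induction j with
    | zero => intro χ s; simp
    | succ j ih =>
      intro χ s
      rw [pow_succ', Equiv.Perm.mul_apply]
      change φ (((π' ^ j) χ).1 s) = _
      rw [ih, hφ, ← pow_mul, pow_succ]
  intro s hs
  have := hsep (⟨s, hs⟩ ^ Q ^ (n * n).factorial) ⟨s, hs⟩ fun χ => by
    rw [χ.pow, ← hit, hpow, Equiv.Perm.one_apply]
  exact congrArg Subtype.val this

/-- a lower bound for the degree: an abelian group `T` acts on a minimal `T`-invariant abelian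
group `A` of order prime to the characteristic -/
theorem index_le_sq (ρ : Γ →* Matrix (Fin n) (Fin n) k) (hρ : Function.Injective ρ)
    {T A : Subgroup Γ} (hT : ∀ x ∈ T, ∀ y ∈ T, x * y = y * x) (hA0 : A ≠ ⊥)
    (hA : ∀ x ∈ A, ∀ y ∈ A, x * y = y * x) (ho : ∀ s ∈ A, ∃ m : ℕ, (m : k) ≠ 0 ∧ s ^ m = 1)
    (hn : ∀ t ∈ T, ∀ x ∈ A, t * x * t⁻¹ ∈ A)
    (hmin : ∀ A' ≤ A, (∀ t ∈ T, ∀ x ∈ A', t * x * t⁻¹ ∈ A') → A' = ⊥ ∨ A' = A) :
    (Subgroup.centralizer (A : Set Γ)).relIndex T ≤ n * n := by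
  obtain ⟨hfin, hcard, hsep⟩ := wt_facts ρ hρ A hA ho
  obtain ⟨⟨x₀, hx₀⟩, hx1⟩ := Subgroup.ne_bot_iff_exists_ne_one.1 hA0
  obtain ⟨χ, hχ⟩ : ∃ χ : Wt ρ A, χ.1 ⟨x₀, hx₀⟩ ≠ χ.1 1 := by
    by_contra hcon
    push Not at hcon
    exact hx1 (hsep _ _ hcon)
  have hn' : ∀ t : T, ∀ x : A, (t : Γ)⁻¹ * x * t ∈ A := fun t x => by
    simpa using hn _ (inv_mem t.2) x x.2
  let F : T → Wt ρ A := fun t => ⟨fun x => χ.1 ⟨_, hn' t x⟩, by
    obtain ⟨a, ha0, ha⟩ := χ.2
    refine ⟨ρ t * a, fun h => ha0 ?_, fun s => ?_⟩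
    · have := congrArg (ρ (t : Γ)⁻¹ * ·) h
      simpa [← mul_assoc, ← map_mul] using this
    · rw [← mul_smul_comm, ← ha, ← mul_assoc, ← mul_assoc, ← map_mul, ← map_mul]
      simp [mul_assoc]⟩
  have key : ∀ t t' : T, F t = F t' → (t : Γ)⁻¹ * t' ∈ Subgroup.centralizer (A : Set Γ) := by
    intro t t' h
    have h1 : ∀ x : A, χ.1 ⟨_, hn' (t⁻¹ * t') x⟩ = χ.1 x := by
      intro x
      have h2 := congrFun (congrArg Subtype.val h) ⟨_, hn t t.2 x x.2⟩
      simp only [F] at h2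
      refine Eq.trans ?_ (h2.symm.trans ?_)
      · exact congrArg χ.1 (Subtype.ext (by simp [mul_assoc]))
      · exact congrArg χ.1 (Subtype.ext (by simp [mul_assoc]))
    set u : T := t⁻¹ * t' with hu
    let A' : Subgroup Γ :=
      { carrier := {y | ∃ x ∈ A, y = (u : Γ)⁻¹ * x * u * x⁻¹}
        one_mem' := ⟨1, one_mem _, by simp⟩
        mul_mem' := by
          rintro _ _ ⟨x, hx, rfl⟩ ⟨y, hy, rfl⟩
          refine ⟨x * y, mul_mem hx hy, ?_⟩
          have e := hA _ (inv_mem hx) _ (mul_mem (hn' u ⟨y, hy⟩) (inv_mem hy))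
          calc _ = (u : Γ)⁻¹ * x * u * (x⁻¹ * ((u : Γ)⁻¹ * y * u * y⁻¹)) := by group
            _ = _ := by rw [e]; group
        inv_mem' := by
          rintro _ ⟨x, hx, rfl⟩
          refine ⟨x⁻¹, inv_mem hx, ?_⟩
          have e := hA _ hx _ (hn' u ⟨x⁻¹, inv_mem hx⟩)
          calc _ = x * ((u : Γ)⁻¹ * x⁻¹ * u) := by group
            _ = _ := by rw [e]; group }
    have hle : A' ≤ A := by
      rintro _ ⟨x, hx, rfl⟩
      exact mul_mem (hn' u ⟨x, hx⟩) (inv_mem hx)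
    rcases hmin A' hle (by
      rintro s hs _ ⟨x, hx, rfl⟩
      refine ⟨s * x * s⁻¹, hn s hs x hx, ?_⟩
      have e := hT s hs _ (inv_mem u.2)
      have e' := hT _ u.2 _ (inv_mem hs)
      calc _ = (s * (u : Γ)⁻¹) * x * (u * s⁻¹) * (s * x⁻¹ * s⁻¹) := by group
        _ = _ := by rw [e, e']; group) with h0 | h0
    · intro x hx
      have h2 : (u : Γ)⁻¹ * x * u * x⁻¹ ∈ A' := ⟨x, hx, rfl⟩
      rw [h0, Subgroup.mem_bot] at h2
      change x * u = u * x
      calc x * u = u * ((u : Γ)⁻¹ * x * u * x⁻¹) * x := by group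
        _ = _ := by rw [h2, mul_one]
    · exfalso
      apply hχ
      have h2 : x₀ ∈ A' := h0 ▸ hx₀
      obtain ⟨x, hx, e⟩ := h2
      have e2 : (⟨x₀, hx₀⟩ : A) = ⟨_, hn' u ⟨x, hx⟩⟩ * (⟨x, hx⟩ : A)⁻¹ := Subtype.ext e
      rw [e2, χ.mul, h1, ← χ.mul, mul_inv_cancel]
  refine le_trans ?_ hcard
  let F' : T ⧸ (Subgroup.centralizer (A : Set Γ)).subgroupOf T → Wt ρ A := fun q => F q.out
  refine Nat.card_le_card_of_injective F' fun q q' h => ?_
  rw [← q.out_eq', ← q'.out_eq']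
  exact QuotientGroup.eq.2 (key _ _ h)

end

end Vale.Agent.P183BD
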