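import Mathlib.Dynamics.PeriodicPts.Lemmas
import Mathlib.LinearAlgebra.Matrix.CharP
import Mathlib.Data.Nat.Factorization.Basic
import Vale.Agent.P183BD.Weights

/-!
P183: the Frobenius endomorphism attached to an absolutely irreducible group of matrices.
-/

namespace Vale.Agent.P183BD

open Matrix Function

variable {n p g : ℕ} {k : Type} [Field k] [Fact p.Prime] [CharP k p]
  {X : Set (Matrix (Fin n) (Fin n) k)} {θ : Matrix (Fin n) (Fin n) k →+* Matrix (Fin n) (Fin n) k}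

/-- `θ` is the Frobenius endomorphism for the field of traces of `X` -/
structure Fr (p g : ℕ) [Fact p.Prime] [CharP k p] (X : Set (Matrix (Fin n) (Fin n) k))
    (θ : Matrix (Fin n) (Fin n) k →+* Matrix (Fin n) (Fin n) k) : Prop where
  pos : 0 < g
  span : Submodule.span k X = ⊤
  smul : ∀ c a, θ (c • a) = iterateFrobenius k p g c • θ a
  fix : ∀ t ∈ X, θ t = t
  tr : ∀ t ∈ X, trace t ^ p ^ g = trace t
  min : ∀ j, (∀ t ∈ X, trace t ^ p ^ j = trace t) → g ∣ j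

omit [Fact p.Prime] [CharP k p] in
lemma per_iff (j : ℕ) (x : k) : IsPeriodicPt (fun y : k => y ^ p) j x ↔ x ^ p ^ j = x := by
  rw [IsPeriodicPt, IsFixedPt, pow_iterate]

theorem exists_fr (hX : ∀ x ∈ X, ∀ y ∈ X, x * y ∈ X) (h1 : 1 ∈ X)
    (hs : Submodule.span k X = ⊤) {j : ℕ} (hj : 0 < j) (ht : ∀ t ∈ X, trace t ^ p ^ j = trace t) :
    ∃ g θ, Fr p g X θ := by
  classical
  have hex : ∃ j, 0 < j ∧ ∀ t ∈ X, trace t ^ p ^ j = trace t := ⟨j, hj, ht⟩
  obtain ⟨h2, h3⟩ := Nat.find_spec hex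
  obtain ⟨θ, h4, h5⟩ := exists_theta hX h1 hs (iterateFrobenius k p (Nat.find hex)) h3
  refine ⟨_, θ, h2, hs, h4, h5, h3, fun i hi => ?_⟩
  have h6 := Nat.find_min' hex ⟨Nat.gcd_pos_of_pos_left i h2, fun t ht => (per_iff _ _).1
    (((per_iff _ _).2 (h3 t ht)).gcd ((per_iff _ _).2 (hi t ht)))⟩
  rw [← le_antisymm (Nat.gcd_le_left i h2) h6]
  exact Nat.gcd_dvd_right _ _

lemma per_pow {R : Type*} [Semiring R] {θ : R →+* R} {j : ℕ} {a : R} :
    IsPeriodicPt θ j a ↔ (θ ^ j) a = a := by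
  rw [RingHom.coe_pow]
  rfl

lemma per_mul {R : Type*} [Semiring R] {θ : R →+* R} {j : ℕ} {a b : R}
    (ha : IsPeriodicPt θ j a) (hb : IsPeriodicPt θ j b) : IsPeriodicPt θ j (a * b) := by
  rw [per_pow] at ha hb ⊢
  rw [map_mul, ha, hb]

namespace Fr

variable (h : Fr p g X θ)
include h

lemma tr_pow (j : ℕ) : ∀ t ∈ X, (iterateFrobenius k p g ^ j) (trace t) = trace t :=
  fun t ht => fix_pow (h.tr t ht) j

lemma per_of_mem (j : ℕ) {t : Matrix (Fin n) (Fin n) k} (ht : t ∈ X) : IsPeriodicPt θ j t :=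
  per_pow.2 (fix_pow (h.fix t ht) j)

lemma per_of_trace {j : ℕ} {a : Matrix (Fin n) (Fin n) k}
    (ha : ∀ t ∈ X, trace (a * t) ^ p ^ (g * j) = trace (a * t)) : IsPeriodicPt θ j a :=
  per_pow.2 (theta_fix h.span (h.tr_pow j) (semi_pow h.smul j) (fun t ht => fix_pow (h.fix t ht) j)
    fun t ht => by rw [frob_pow, ha t ht])

lemma trace_of_per {j : ℕ} {a : Matrix (Fin n) (Fin n) k} (ha : IsPeriodicPt θ j a) :
    ∀ t ∈ X, trace (a * t) ^ p ^ (g * j) = trace (a * t) := fun t ht => by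
  rw [← frob_pow, ← trace_theta h.span (h.tr_pow j) (semi_pow h.smul j)
    (fun t ht => fix_pow (h.fix t ht) j), per_pow.1 (per_mul ha (h.per_of_mem j ht))]

/-- on the span of a torus of `X` a power of `θ` is a power map -/
lemma pow_on_span [IsAlgClosed k] (hn : 0 < n) {Γ : Type*} [Group Γ]
    {ρ : Γ →* Matrix (Fin n) (Fin n) k} (hρ : Injective ρ) {S : Subgroup Γ}
    (hc : ∀ x ∈ S, ∀ y ∈ S, x * y = y * x) (ho : ∀ s ∈ S, ∃ m : ℕ, ¬ p ∣ m ∧ s ^ m = 1)
    (hS : ∀ s ∈ S, ρ s ∈ X) (j : ℕ) {a : Matrix (Fin n) (Fin n) k}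
    (ha : a ∈ Submodule.span k (ρ '' S)) :
    (θ ^ ((n * n).factorial * j)) a = a ^ p ^ (g * ((n * n).factorial * j)) := by
  have : Nonempty (Fin n) := ⟨⟨0, hn⟩⟩
  have h1 := pow_eq_self ρ hρ S hc (fun s hs => (ho s hs).imp fun m hm =>
    ⟨fun h0 => hm.1 ((CharP.cast_eq_zero_iff k p m).1 h0), hm.2⟩) (iterateFrobenius k p g) (p ^ g)
    (fun _ => rfl) θ (theta_inj h.span h.tr h.smul h.fix) h.smul fun s hs => h.fix _ (hS s hs)
  have h2 : ∀ s ∈ S, s ^ p ^ (g * ((n * n).factorial * j)) = s := by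
    intro s hs
    have h3 : IsPeriodicPt (fun y : Γ => y ^ p) (g * (n * n).factorial) s := by
      rw [IsPeriodicPt, IsFixedPt, pow_iterate, pow_mul]
      exact h1 s hs
    have h4 := h3.mul_const j
    rwa [IsPeriodicPt, IsFixedPt, pow_iterate, mul_assoc] at h4
  have hcm : ∀ a ∈ Submodule.span k (ρ '' S), ∀ b ∈ Submodule.span k (ρ '' S), Commute a b := by
    intro a ha b hb
    induction ha, hb using Submodule.span_induction₂ with
    | mem_mem x y hx hy =>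
      obtain ⟨s, hs, rfl⟩ := hx
      obtain ⟨t, ht, rfl⟩ := hy
      rw [Commute, SemiconjBy, ← map_mul, hc s hs t ht, map_mul]
    | zero_left => exact Commute.zero_left _
    | zero_right => exact Commute.zero_right _
    | add_left _ _ _ _ _ _ h1 h2 => exact h1.add_left h2
    | add_right _ _ _ _ _ _ h1 h2 => exact h1.add_right h2
    | smul_left _ _ _ _ _ h1 => exact h1.smul_left _
    | smul_right _ _ _ _ _ h1 => exact h1.smul_right _
  induction ha using Submodule.span_induction with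
  | mem t ht =>
    obtain ⟨s, hs, rfl⟩ := ht
    rw [← map_pow, h2 s hs, fix_pow (h.fix _ (hS s hs))]
  | zero => rw [map_zero, zero_pow (pow_pos (Fact.out : p.Prime).pos _).ne']
  | add x y hx hy h3 h4 => rw [map_add, h3, h4, add_pow_char_pow_of_commute p _ (hcm x hx y hy)]
  | smul c x _ h3 => rw [semi_pow h.smul, h3, frob_pow, smul_pow]

end Fr

lemma mul_sub_le {P : ℕ} (hP : 2 ≤ P) (i : ℕ) : i * (P - 1) ≤ P ^ i - 1 := by
  obtain ⟨x, rfl⟩ : ∃ x, P = x + 1 := ⟨P - 1, by omega⟩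
  rw [Nat.add_sub_cancel]
  refine Nat.le_sub_one_of_lt ?_
  induction i with
  | zero => simp
  | succ i ih =>
    have := Nat.one_le_pow i (x + 1) (by omega)
    rw [pow_succ]
    nlinarith

omit [Fact p.Prime] in
/-- the arithmetic of the final contradiction -/
lemma arith (hp : 2 ≤ p) {Γ : Type*} [Group Γ] {t : Γ} (hfin : 0 < orderOf t) {c f j J J' l N : ℕ}
    (hf : 0 < f) (hj : 0 < j) (hjc : j ≤ c) (hd : p ^ f - 1 ∣ j * orderOf t) (hl : l.Prime)
    (hcl : c < l) (h1 : l ^ N ∣ f) (h2 : l ^ N ∣ J) (h3 : ¬ l ^ N ∣ J') :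
    ∃ i : ℕ, (t ^ i) ^ p ^ J = t ^ i ∧ (t ^ i) ^ p ^ J' ≠ t ^ i := by
  have hpow : ∀ (s : Γ) (a : ℕ), s ^ p ^ a = s ↔ orderOf s ∣ p ^ a - 1 := by
    intro s a
    rw [orderOf_dvd_iff_pow_eq_one]
    conv_lhs => rw [← Nat.sub_add_cancel (Nat.one_le_pow a p (by omega)), pow_succ]
    exact mul_eq_right
  set d := Nat.gcd f J with hdd
  have hd0 : 0 < d := Nat.gcd_pos_of_pos_left _ hf
  set o := Nat.gcd (orderOf t) (p ^ d - 1) with ho
  have hord : orderOf (t ^ (orderOf t / o)) = o :=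
    orderOf_pow_orderOf_div hfin.ne' (Nat.gcd_dvd_left _ _)
  refine ⟨orderOf t / o, (hpow _ _).2 ?_, fun h => ?_⟩
  · rw [hord]
    exact (Nat.gcd_dvd_right _ _).trans (Nat.pow_sub_one_dvd_pow_sub_one p (Nat.gcd_dvd_right _ _))
  rw [hpow, hord] at h
  have h4 : o ∣ p ^ Nat.gcd d J' - 1 := by
    rw [← Nat.pow_sub_one_gcd_pow_sub_one]
    exact Nat.dvd_gcd (Nat.gcd_dvd_right _ _) h
  obtain ⟨i, hi⟩ := Nat.gcd_dvd_left d J'
  have h5 : l ∣ i := by
    by_contra hli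
    apply h3
    have h6 : l ^ N ∣ Nat.gcd d J' * i := hi ▸ Nat.dvd_gcd h1 h2
    exact ((Nat.Coprime.pow_left N ((Nat.Prime.coprime_iff_not_dvd hl).2 hli)).dvd_of_dvd_mul_right
      h6).trans (Nat.gcd_dvd_right _ _)
  have hg0 : 0 < Nat.gcd d J' := Nat.gcd_pos_of_pos_left _ hd0
  have hi0 : 0 < i := Nat.pos_of_ne_zero fun e => by rw [e, mul_zero] at hi; omega
  have hP : 2 ≤ p ^ Nat.gcd d J' := Nat.one_lt_pow hg0.ne' hp
  have h7 := mul_sub_le hP i
  rw [← pow_mul, ← hi] at h7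
  have h8 : p ^ d - 1 ∣ j * o := by
    rw [ho, ← Nat.gcd_mul_left]
    exact Nat.dvd_gcd ((Nat.pow_sub_one_dvd_pow_sub_one p (Nat.gcd_dvd_left _ _)).trans hd)
      (Dvd.intro_left _ rfl)
  have ho0 : 0 < o := Nat.gcd_pos_of_pos_left _ hfin
  have h9 := Nat.le_of_dvd (Nat.mul_pos hj ho0) h8
  have h10 := Nat.le_of_dvd (by omega) h4
  have h11 := Nat.le_of_dvd hi0 h5
  have h12 : i * o ≤ j * o := (Nat.mul_le_mul_left i h10).trans (h7.trans h9)
  have := Nat.le_of_mul_le_mul_right h12 ho0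
  omega

end Vale.Agent.P183BD
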