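import Mathlib.Data.Nat.Prime.Factorial
import Vale.Agent.P183BD.Frob

/-!
P183: four arms of a horizontal sum give a contradiction.
-/

namespace Vale.Agent.P183BD

open Matrix Function

variable {n p g : ℕ} {k : Type} [Field k] {Y : Type} [Group Y]

/-- the elements whose matrices are fixed by `θ ^ j` -/
def perSub (θ : Matrix (Fin n) (Fin n) k →+* Matrix (Fin n) (Fin n) k)
    (ρ : Y →* Matrix (Fin n) (Fin n) k) (j : ℕ) : Subgroup Y where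
  carrier := {t | IsPeriodicPt θ j (ρ t)}
  one_mem' := per_pow.2 (by simp)
  mul_mem' := fun ha hb => by
    rw [Set.mem_ofPred_eq, map_mul]
    exact per_mul ha hb
  inv_mem' := fun {x} hx => per_pow.2 (by
    have h1 : (θ ^ j) (ρ x⁻¹) * ρ x = 1 := by
      conv_lhs => rw [← per_pow.1 hx, ← map_mul, ← map_mul, inv_mul_cancel, map_one, map_one]
    calc (θ ^ j) (ρ x⁻¹) = (θ ^ j) (ρ x⁻¹) * ρ x * ρ x⁻¹ := by
          rw [mul_assoc, ← map_mul, mul_inv_cancel, map_one, mul_one]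
      _ = _ := by rw [h1, one_mul])

variable {θ : Matrix (Fin n) (Fin n) k →+* Matrix (Fin n) (Fin n) k}
  {ρ : Y →* Matrix (Fin n) (Fin n) k} {EX Eb S : Subgroup Y}

lemma perSub_dvd {i j : ℕ} (h : i ∣ j) : perSub θ ρ i ≤ perSub θ ρ j :=
  fun _ hx => IsPeriodicPt.trans_dvd hx h

lemma perSub_gcd {i j : ℕ} {x : Y} (h : x ∈ perSub θ ρ i) (h' : x ∈ perSub θ ρ j) :
    x ∈ perSub θ ρ (Nat.gcd i j) := IsPeriodicPt.gcd h h'

lemma exists_order (Z : Subgroup Y) {j : ℕ} (hj : 0 < j) (h : Z ≤ perSub θ ρ j) :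
    ∃ r, 0 < r ∧ ∀ i, Z ≤ perSub θ ρ i ↔ r ∣ i := by
  classical
  have hex : ∃ j, 0 < j ∧ Z ≤ perSub θ ρ j := ⟨j, hj, h⟩
  obtain ⟨h2, h3⟩ := Nat.find_spec hex
  refine ⟨_, h2, fun i => ⟨fun hi => ?_, fun hi => h3.trans (perSub_dvd hi)⟩⟩
  have h6 := Nat.find_min' hex ⟨Nat.gcd_pos_of_pos_left i h2,
    fun t ht => perSub_gcd (h3 ht) (hi ht)⟩
  rw [← le_antisymm (Nat.gcd_le_left i h2) h6]
  exact Nat.gcd_dvd_right _ _

lemma exists_four {m B : ℕ} (hm : B + 5 ≤ m) (t : Fin m → ℕ) (ht : Injective t) :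
    ∃ i : Fin 4 → Fin m, Injective i ∧ ∀ l, B < t (i l) := by
  classical
  have h1 : (Finset.univ.filter fun i => ¬ B < t i).card ≤ (Finset.range (B + 1)).card :=
    Finset.card_le_card_of_injOn t (fun i hi => by simp at hi ⊢; omega) ht.injOn
  have h2 := Finset.card_filter_add_card_filter_not (s := Finset.univ) fun i => B < t i
  simp only [Finset.card_range, Finset.card_univ, Fintype.card_fin] at h1 h2
  obtain ⟨s, hs, hc⟩ := Finset.exists_subset_card_eq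
    (show 4 ≤ (Finset.univ.filter fun i => B < t i).card by omega)
  refine ⟨fun l => s.orderEmbOfFin hc l, (s.orderEmbOfFin hc).injective, fun l => ?_⟩
  exact (Finset.mem_filter.1 (hs (s.orderEmbOfFin_mem hc l))).2

lemma pow_dvd_lcm {l N a b : ℕ} (hl : l.Prime) (ha : a ≠ 0) (hb : b ≠ 0)
    (h : l ^ N ∣ Nat.lcm a b) : l ^ N ∣ a ∨ l ^ N ∣ b := by
  rw [hl.pow_dvd_iff_le_factorization (Nat.lcm_ne_zero ha hb), Nat.factorization_lcm ha hb,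
    Finsupp.sup_apply, le_sup_iff] at h
  rwa [hl.pow_dvd_iff_le_factorization ha, hl.pow_dvd_iff_le_factorization hb]

variable [Fact p.Prime] [CharP k p]

lemma Fr.le_perSub (h : Fr p g (ρ '' EX) θ) (j : ℕ) : EX ≤ perSub θ ρ j :=
  fun x hx => h.per_of_mem j ⟨x, hx, rfl⟩

lemma Fr.fix_of_trace (h : Fr p g (ρ '' EX) θ) {Z : Subgroup Y} (hZ : EX ≤ Z) {J : ℕ}
    (ht : ∀ y ∈ Z, trace (ρ y) ^ p ^ J = trace (ρ y)) : ∃ j, J = g * j ∧ Z ≤ perSub θ ρ j := by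
  obtain ⟨j, rfl⟩ := h.min J (by
    rintro _ ⟨x, hx, rfl⟩
    exact ht x (hZ hx))
  refine ⟨j, rfl, fun y hy => h.per_of_trace ?_⟩
  rintro _ ⟨x, hx, rfl⟩
  rw [← map_mul]
  exact ht _ (mul_mem hy (hZ hx))

lemma Fr.card_le (h : Fr p g (ρ '' EX) θ) (hρ : Injective ρ) {Z : Subgroup Y} {r : ℕ}
    (hr : 0 < r) (hZ : Z ≤ perSub θ ρ r) : Nat.card Z ≤ (p ^ (g * r)) ^ (n * n) :=
  card_le_of_trace h.span (Nat.one_lt_pow (Nat.mul_pos h.pos hr).ne' (Fact.out : p.Prime).one_lt)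
    (fun y : Z => ρ y) (fun _ _ e => Subtype.ext (hρ e)) fun y => h.trace_of_per (hZ y.2)

theorem four [IsAlgClosed k] [Finite Y] {c m r : ℕ} (hm : c * c + c + 5 ≤ m) (hn : 0 < n)
    (hnc : n ≤ c) (hρ : Injective ρ) (hF : Fr p g (ρ '' EX) θ) {A : Type} [Group A]
    (act : A →* MulAut Y) (E : Fin m → Subgroup Y) (hc : ∀ x ∈ S, ∀ y ∈ S, x * y = y * x)
    (ho : ∀ s ∈ S, ∃ m : ℕ, ¬ p ∣ m ∧ s ^ m = 1)
    (hSa : ∀ a, ∃ e ∈ EX, ∀ s ∈ S, e⁻¹ * act a s * e ∈ S)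
    (hE : ∀ i, EX ≤ E i ∧ E i ≤ Eb ∧ ∀ a, ∀ x ∈ E i, act a x ∈ E i)
    (hsup : ∀ i j, i ≠ j → Eb ≤ E i ⊔ E j)
    (hpot : ∀ s ∈ S, s ∈ Eb → ρ s ∈ Submodule.span k (ρ '' (S ⊓ EX : Subgroup Y)))
    (hcen : ∀ i y, (∀ e ∈ E i, e * y = y * e) → y = 1)
    (hHS : ∀ i j, i ≠ j → ∀ F₁ F₂ : Subgroup Y, (∀ a, ∀ x ∈ F₁, act a x ∈ F₁) →
      (∀ a, ∀ x ∈ F₂, act a x ∈ F₂) → E i ≤ F₁ → E j ≤ F₂ → ¬ Eb ≤ F₁ → ¬ Eb ≤ F₂ →
      ∀ s ∈ F₁, s ∈ F₂ → s ∈ Eb → ∀ l, ∀ e ∈ E l, s * e * s⁻¹ ∈ E l)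
    (hLie : ∀ i, ∃ (f e j : ℕ) (t : Y), 0 < f ∧ 0 < e ∧ e ≤ c ∧
      (∀ y ∈ E i, trace (ρ y) ^ p ^ (f * e) = trace (ρ y)) ∧ t ∈ S ∧ t ∈ E i ∧ 0 < j ∧ j ≤ c ∧
      p ^ f - 1 ∣ j * orderOf t)
    (hr0 : 0 < r) (hr : ∀ j, Eb ≤ perSub θ ρ j ↔ r ∣ j)
    (hH : ∀ i, ∃ j, E i ≤ perSub θ ρ j ∧ ¬ r ∣ j) : False := by
  have hp : p.Prime := Fact.out
  have hrb := (hr r).2 dvd_rfl
  have h1 : ∀ i, ∃ l u, l.Prime ∧ r = l * u ∧ E i ≤ perSub θ ρ u := by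
    intro i
    obtain ⟨j, hj, hrj⟩ := hH i
    obtain ⟨d, hd⟩ := Nat.gcd_dvd_right j r
    have hd1 : d ≠ 1 := fun e => hrj (by
      rw [e, mul_one] at hd
      exact hd ▸ Nat.gcd_dvd_left j r)
    obtain ⟨l, hl, d', rfl⟩ := Nat.exists_prime_and_dvd hd1
    refine ⟨l, Nat.gcd j r * d', hl, by rw [← mul_left_comm, ← hd], fun x hx => ?_⟩
    exact perSub_dvd (Dvd.intro _ rfl) (perSub_gcd (hj hx) (hrb ((hE i).2.1 hx)))
  choose l u hl hlu hu using h1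
  have hu0 : ∀ i, 0 < u i := fun i => Nat.pos_of_ne_zero fun e => by
    have := hlu i
    rw [e, mul_zero] at this
    omega
  have hnot : ∀ i, ¬ Eb ≤ perSub θ ρ (u i) := fun i e => by
    have h2 := Nat.le_of_dvd (hu0 i) ((hr _).1 e)
    have h3 := (hl i).two_le
    have h4 := hlu i
    have := hu0 i
    nlinarith
  have hinj : Injective l := by
    intro i j e
    by_contra hij
    have h2 : u i = u j := Nat.eq_of_mul_eq_mul_left (hl i).pos (by rw [← hlu i, e, ← hlu j])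
    exact hnot i ((hsup i j hij).trans (sup_le (hu i) (h2 ▸ hu j)))
  obtain ⟨ι, hι, hbig⟩ := exists_four hm l hinj
  have hnn : n * n ≤ c * c := Nat.mul_le_mul hnc hnc
  set μ := (n * n).factorial with hμ
  have hcop : ∀ i, (l (ι i)).Coprime μ := fun i =>
    (Nat.Prime.coprime_iff_not_dvd (hl _)).2 fun e => by
      have := (hl _).dvd_factorial.1 e
      have := hbig i
      omega
  have hne : ∀ i j : Fin 4, i ≠ j → (l (ι i)).Coprime (l (ι j)) := fun i j hij =>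
    (Nat.coprime_primes (hl _) (hl _)).2 fun e => hij (hι (hinj e))
  obtain ⟨w, hw⟩ : l (ι 0) * l (ι 1) ∣ r := (hne 0 1 (by decide)).mul_dvd_of_dvd_of_dvd
    (Dvd.intro _ (hlu _).symm) (Dvd.intro _ (hlu _).symm)
  have hw0 : u (ι 0) = l (ι 1) * w :=
    Nat.eq_of_mul_eq_mul_left (hl (ι 0)).pos (by rw [← hlu, hw, mul_assoc])
  have hw1 : u (ι 1) = l (ι 0) * w :=
    Nat.eq_of_mul_eq_mul_left (hl (ι 1)).pos (by rw [← hlu, hw]; ring)
  obtain ⟨f, e, j, t, hf, he, hec, htr, htS, htE, hj, hjc, hd⟩ := hLie (ι 2)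
  obtain ⟨j₃, hj₃, hfix⟩ := hF.fix_of_trace (hE _).1 htr
  have hgr : g * r ≠ 0 := (Nat.mul_pos hF.pos hr0).ne'
  set N := (g * r).factorization (l (ι 3)) with hN
  have a1 : l (ι 3) ^ N ∣ g * r := Nat.ordProj_dvd _ _
  have a2 : ¬ l (ι 3) ^ N ∣ g * (μ * u (ι 3)) := fun e => by
    apply Nat.pow_succ_factorization_not_dvd hgr (hl (ι 3))
    have h2 : l (ι 3) ^ N ∣ g * u (ι 3) :=
      ((hcop 3).pow_left N).dvd_of_dvd_mul_left (by rwa [mul_left_comm] at e)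
    have h3 : g * r = g * u (ι 3) * l (ι 3) := by rw [hlu (ι 3)]; ring
    rw [← hN, pow_succ, h3]
    exact Nat.mul_dvd_mul_right h2 _
  have a3 : l (ι 3) ^ N ∣ g * (μ * w) := by
    have h2 : l (ι 3) ^ N ∣ l (ι 0) * l (ι 1) * (g * w) := by
      rw [mul_left_comm, ← hw]
      exact a1
    rw [mul_left_comm]
    exact Dvd.dvd.mul_left ((((hne 3 0 (by decide)).mul_right (hne 3 1 (by decide))).pow_left
      N).dvd_of_dvd_mul_left h2) _
  have a4 : l (ι 3) ^ N ∣ f := by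
    have h2 : r ∣ Nat.lcm j₃ (u (ι 3)) := (hr _).1 ((hsup _ _ (hι.ne (show (2 : Fin 4) ≠ 3 by
      decide))).trans (sup_le (hfix.trans (perSub_dvd (Nat.dvd_lcm_left _ _)))
        ((hu _).trans (perSub_dvd (Nat.dvd_lcm_right _ _)))))
    have h3 := a1.trans (Nat.mul_dvd_mul_left g h2)
    rw [← Nat.lcm_mul_left, ← hj₃] at h3
    have h4 := (pow_dvd_lcm (hl _) (Nat.mul_pos hf he).ne' (Nat.mul_pos hF.pos (hu0 _)).ne'
      h3).resolve_right fun e => a2 (by rw [mul_left_comm]; exact Dvd.dvd.mul_left e _)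
    refine (Nat.Coprime.pow_left N ((Nat.Prime.coprime_iff_not_dvd (hl _)).2
      fun e => ?_)).dvd_of_dvd_mul_right h4
    have := Nat.le_of_dvd he e
    have := hbig 3
    omega
  obtain ⟨i, hs1, hs2⟩ := arith hp.two_le (orderOf_pos t) hf hj hjc hd (hl (ι 3))
    (by have := hbig 3; omega) a4 a3 a2
  have hsS : t ^ i ∈ S := pow_mem htS i
  have hsE : t ^ i ∈ E (ι 2) := pow_mem htE i
  generalize t ^ i = s at hs1 hs2 hsS hsE
  have hpw : ∀ x ∈ S, x ∈ Eb → ∀ j, (θ ^ (μ * j)) (ρ x) = ρ (x ^ p ^ (g * (μ * j))) :=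
    fun x hx hxb j => by
      rw [map_pow]
      exact hF.pow_on_span hn hρ (S := S ⊓ EX) (fun x hx y hy => hc x hx.1 y hy.1)
        (fun s hs => ho s hs.1) (fun s hs => ⟨s, hs.2, rfl⟩) j (hpot x hx hxb)
  let F : Fin m → Subgroup Y := fun i => ⨅ a, (perSub θ ρ (u i)).comap (act a).toMonoidHom
  have hFm : ∀ i x, x ∈ F i ↔ ∀ a, act a x ∈ perSub θ ρ (u i) := fun i x => by
    simp [F, Subgroup.mem_iInf]
  have hFi : ∀ i a, ∀ x ∈ F i, act a x ∈ F i := fun i a x hx => (hFm _ _).2 fun b => by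
    rw [← MulAut.mul_apply, ← map_mul]
    exact (hFm _ _).1 hx _
  have hFE : ∀ i, E i ≤ F i := fun i x hx => (hFm _ _).2 fun a => hu i ((hE i).2.2 a x hx)
  have hFn : ∀ i, ¬ Eb ≤ F i := fun i e => hnot i fun x hx => by
    simpa using (hFm _ _).1 (e hx) 1
  have hsF : ∀ i : Fin 4, w ∣ u (ι i) → s ∈ F (ι i) := fun i hi => (hFm _ _).2 fun a => by
    obtain ⟨e, he, hes⟩ := hSa a
    have h2 := hes s hsS
    have h3 : e⁻¹ * act a s * e ∈ Eb := (hE (ι 2)).2.1 (mul_mem (mul_mem (inv_mem ((hE _).1 he))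
      ((hE _).2.2 a s hsE)) ((hE _).1 he))
    have h4 : e⁻¹ * act a s * e ∈ perSub θ ρ (μ * w) := per_pow.2 (by
      rw [hpw _ h2 h3]
      congr 1
      conv_rhs => rw [← hs1, map_pow]
      simpa using conj_pow (a := e⁻¹) (b := act a s) (i := p ^ (g * (μ * w))))
    have h5 := perSub_gcd (perSub_dvd (Nat.mul_dvd_mul_left μ hi) h4) (hrb h3)
    rw [hlu (ι i), Nat.gcd_mul_right, (hcop i).symm, one_mul] at h5
    have h6 := mul_mem (mul_mem (hF.le_perSub _ he) h5) (inv_mem (hF.le_perSub _ he))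
    simpa [mul_assoc] using h6
  have hsb := (hE _).2.1 hsE
  have h7 := hHS _ _ (hι.ne (show (0 : Fin 4) ≠ 1 by decide)) _ _ (hFi _) (hFi _) (hFE _) (hFE _)
    (hFn _) (hFn _) s (hsF 0 (Dvd.intro_left _ hw0.symm)) (hsF 1 (Dvd.intro_left _ hw1.symm)) hsb
    (ι 3)
  apply hs2
  have h8 := hpw s hsS hsb (u (ι 3))
  generalize s ^ p ^ (g * (μ * u (ι 3))) = s' at h8
  have h9 := hcen (ι 3) (s⁻¹ * s') fun x hx => by
    have h10 : ∀ y ∈ E (ι 3), (θ ^ (μ * u (ι 3))) (ρ y) = ρ y := fun y hy =>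
      per_pow.1 (perSub_dvd (Dvd.intro_left _ rfl) (hu _ hy))
    have h11 : ρ (s' * x) = ρ (s * x * s⁻¹ * s') := by
      rw [map_mul, ← h8, ← h10 x hx, ← map_mul, ← map_mul, map_mul ρ _ s', ← h8,
        ← h10 _ (h7 x hx), ← map_mul, ← map_mul, inv_mul_cancel_right]
    have h12 := hρ h11
    calc x * (s⁻¹ * s') = s⁻¹ * (s * x * s⁻¹ * s') := by group
      _ = _ := by rw [← h12, mul_assoc]
  exact (inv_mul_eq_one.1 h9).symm

end Vale.Agent.P183BD
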