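import Vale.Agent.P183BD.Quot
import Vale.Agent.P183BD.CHI
import Vale.Agent.P183CH2.Main

/-!
P183: finite groups of Lie type over large fields belong to the internal class.
-/

namespace Vale.Agent.P183BD

open Subgroup Vale.Agent.P183CH Vale.Agent.P183CH3 Vale.Agent.P183CR Matrix

/-- a large subset of a finite field generates it -/
lemma mem_closure_of_card {k : Type} [Field k] {p l C : ℕ} [Fact p.Prime] [CharP k p] (hl : 0 < l)
    {X : Set k} (hX : ∀ x ∈ X, x ^ p ^ l = x) (hc : p ^ l - 1 ≤ C * X.ncard)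
    (hq : C * C + 2 < p ^ l) {z : k} (hz : z ^ p ^ l = z) : z ∈ Subring.closure X := by
  obtain ⟨hf, hcard⟩ := card_fixed_le (k := k) (Nat.one_lt_pow hl.ne' (Fact.out : p.Prime).one_lt)
  let F : X × X → {x : k // x ^ p ^ l = x} := fun a => ⟨a.1 + a.2 * z, by
    rw [add_pow_char_pow, mul_pow, hX _ a.1.2, hX _ a.2.2, hz]⟩
  obtain ⟨⟨a, b⟩, ⟨a', b'⟩, e, hne⟩ : ∃ u v, F u = F v ∧ u ≠ v := by
    by_contra c
    push Not at c
    have h1 := (Nat.card_le_card_of_injective F c).trans hcard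
    rw [Nat.card_prod, Nat.card_coe_set_eq] at h1
    obtain ⟨x, hx⟩ : ∃ x, p ^ l = x + 1 := ⟨p ^ l - 1, by omega⟩
    rw [hx] at hc hq h1
    rw [Nat.add_sub_cancel] at hc
    have h2 := Nat.mul_le_mul hc hc
    nlinarith [Nat.mul_le_mul_left (C * C) h1]
  have e : (a : k) + b * z = a' + b' * z := congrArg Subtype.val e
  have h1 : (b : k) - b' ≠ 0 := fun c => hne (by
    obtain rfl : b = b' := Subtype.ext (sub_eq_zero.1 c)
    rw [Subtype.ext (add_right_cancel e : (a : k) = a')])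
  have h2 : ((b : k) - b') ^ p ^ l = b - b' := by rw [sub_pow_char_pow, hX _ b.2, hX _ b'.2]
  have h3 : z = (a' - a) * (b - b') ^ (p ^ l - 2) := by
    refine mul_right_cancel₀ (mul_ne_zero h1 h1) ?_
    rw [mul_assoc, ← sq, ← pow_add, Nat.sub_add_cancel (by omega), h2]
    linear_combination (b - b' : k) * e
  have h4 : ∀ x : X, (x : k) ∈ Subring.closure X := fun x => Subring.subset_closure x.2
  exact h3 ▸ mul_mem (sub_mem (h4 _) (h4 _)) (pow_mem (sub_mem (h4 _) (h4 _)) _)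

theorem absLie (h3 : CH3T) (h4 : CH4T) : AbsLie IsLie2 := by
  intro R d m hR hm
  have := hR.finite_W
  obtain ⟨C, q₁, h4⟩ := h4 R (Set.finite_range fun w : R.W => w.1 m - m).toFinset hR
  refine ⟨d + R.Φ.card + C + 3, q₁ + (C * C + 2) ^ 3, ?_⟩
  rintro p _ G _ Γ σ π a e f hΓ ⟨ρ, v, hv, hU, hT⟩ hs hq S _ - ⟨ε⟩
  obtain ⟨tw, sba, ⟨n, γ, X, κ, ser⟩, hχ, hfr⟩ := h3 R p G Γ σ π a e f d hR hΓ hs
  obtain ⟨ha, hb, hc⟩ := h4 p G Γ σ π a e f d hΓ hs (by omega)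
  set K := fixP p σ
  have hfix : ∀ g ∈ K, σ g = g := fun g hg =>
    (closure_le (MonoidHom.eqLocus σ (MonoidHom.id _))).2 (fun g hg => hg.1) hg
  have : Finite K := (hs.fin.subset hfix).to_subtype
  have hTK : ∀ t : K, t ∈ Γ.Bo.subgroupOf K ⊓ Γ.N.subgroupOf K ↔ t.1 ∈ Γ.T := fun t =>
    ⟨fun h => hΓ.Bo_inf_N hR h.2 h.1, fun h => ⟨mem_sup_right h, mem_sup_left h⟩⟩
  have hsg : ∀ t ∈ Γ.T ⊓ K, ∀ l δ, hΓ.chi ((sg R p π a)^[l] δ) t = hΓ.chi δ t := by
    intro t ht l δ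
    induction l with
    | zero => rfl
    | succ l ih => rw [Function.iterate_succ_apply', ← hχ t ht.1, hfix t ht.2, ih]
  have hQ : ∀ δ ∈ R.Φ, ∀ t ∈ Γ.T ⊓ K, hΓ.chi δ t ^ p ^ lQ R p π a δ = hΓ.chi δ t := by
    intro δ hδ t ht
    rw [← zpow_natCast, ← hΓ.chi_smul, Nat.cast_pow, ← tw.sg_len hδ, hsg t ht]
  have himg : ∀ δ, (fun t : K => (hΓ.chi δ t : kk p)) ''
      (Γ.Bo.subgroupOf K ⊓ Γ.N.subgroupOf K : Subgroup K) =
      Units.val '' (hΓ.chi δ '' (Γ.T ⊓ K : Subgroup G)) := fun δ => by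
    ext x
    exact ⟨fun ⟨t, ht, e⟩ => ⟨_, ⟨t, ⟨(hTK t).1 ht, t.2⟩, rfl⟩, e⟩,
      fun ⟨_, ⟨t, ht, rfl⟩, e⟩ => ⟨⟨t, ht.2⟩, (hTK _).2 ht.1, e⟩⟩
  have hbig : ∀ δ ∈ R.Φ, C * C + 2 < p ^ lQ R p π a δ := fun δ hδ =>
    lt_of_pow_lt_pow_left₀ 3 (Nat.zero_le _) (((Nat.le_add_left _ _).trans_lt hq).trans_le (by
      rw [← pow_mul, mul_comm]
      exact Nat.pow_le_pow_right (by have := tw.one_lt; omega) (tw.le_lQ hδ)))
  have mf : MF p n (Γ.Bo.subgroupOf K ⊓ Γ.N.subgroupOf K) (Γ.U.subgroupOf K)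
      (fun i => (Γ.X (X i)).subgroupOf K) (fun i x => κ i x) fun i t => hΓ.chi (γ i) t := by
    refine ⟨by simp [ser.zero], by simp [ser.top], fun i hi x hx => ser.mono i hi hx,
      fun i t ht x hx => hΓ.nm_T_X _ _ ((hTK t).1 ht) _ hx,
      fun i hi x hx y hy => ser.add i hi _ ⟨hx, x.2⟩ _ ⟨hy, y.2⟩,
      fun i hi x hx => ser.ker i hi _ ⟨hx, x.2⟩,
      fun i hi t ht x hx => ser.conj i hi _ ⟨(hTK t).1 ht, t.2⟩ _ ⟨hx, x.2⟩,
      fun i hi x hx y hy h0 => ⟨κ i y / κ i x, ?_, (div_mul_cancel₀ _ h0).symm⟩,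
      fun i hi => (ser.nz i hi).elim fun x hx => ⟨⟨x, hx.1.2⟩, hx.1.1, hx.2⟩,
      fun i hi j hj ⟨l, hl⟩ => (hb _ (ser.mem i hi).1 _ (ser.mem j hj).1 l fun t ht =>
        Units.ext (hl ⟨t, ht.2⟩ ((hTK _).2 ht.1))).elim (ser.ne i hi j hj)⟩
    have hγ := (ser.mem i hi).1
    rw [himg]
    refine mem_closure_of_card (tw.lQ_pos hγ) ?_ ?_ (hbig _ hγ) ?_
    · rintro _ ⟨_, ⟨t, ht, rfl⟩, rfl⟩
      exact congrArg Units.val (hQ _ hγ t ht)
    · rw [Set.ncard_image_of_injective _ Units.val_injective]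
      exact hc _ hγ
    · rw [div_pow, div_eq_div_iff (pow_ne_zero _ h0) h0, mul_comm, mul_comm (κ i y)]
      exact (ser.line i hi _ ⟨hx, x.2⟩ _ ⟨hy, y.2⟩).symm
  let θ : K →* S := ε.symm.toMonoidHom.comp (QuotientGroup.mk' _)
  have hθ : Function.Surjective θ := ε.symm.surjective.comp (QuotientGroup.mk'_surjective _)
  have hk : θ.ker ≤ center K := fun z hz =>
    (QuotientGroup.eq_one_iff _).1 (ε.symm.injective (hz.trans (map_one _).symm))
  obtain ⟨κ', χ', mf', hχ'⟩ := mf_map sba hk mf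
  have hTv : ∀ t ∈ Γ.T, (ρ t).1 *ᵥ v = (hΓ.chi m t : kk p) • v := by
    intro t ht
    induction ht using closure_induction with
    | mem g hg =>
      obtain ⟨i, t, rfl⟩ := hg
      rw [hT, hΓ.chi_h hR]
    | one => simp [hΓ.chi_one hR]
    | mul x y hx hy h1 h2 =>
      rw [map_mul, Units.val_mul, ← mulVec_mulVec, h2, mulVec_smul, h1, hΓ.chi_mul hR m hx hy,
        smul_smul, Units.val_mul, mul_comm]
    | inv x hx h1 =>
      rw [hΓ.chi_inv hR m hx, ← Units.smul_def, eq_inv_smul_iff, Units.smul_def, ← mulVec_smul,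
        ← h1, mulVec_mulVec, ← Units.val_mul, ← map_mul, inv_mul_cancel, map_one, Units.val_one,
        one_mulVec]
  obtain ⟨n', hn', ρ', rd⟩ := rd_map sba hk hθ ((Units.coeHom _).comp (ρ.comp K.subtype)) hv
    (l := fun t => hΓ.chi m t) (fun u hu => hU _ hu) (fun t ht => hTv _ ((hTK t).1 ht))
    (fun z hz => by
      have h1 := center_le sba hz
      have h2 : ∀ j, hΓ.chi (R.α j) z = 1 := fun j => by
        obtain ⟨i, hi, l, e⟩ := ser.cover _ ⟨hR.simple j, RS.α_nonneg j⟩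
        obtain ⟨x, hx, h0⟩ := mf.nz i hi
        have k1 := mf.conj i hi z h1 x hx
        rw [← mem_center_iff.1 hz x, mul_inv_cancel_right] at k1
        have k2 : hΓ.chi (γ i) z = 1 :=
          Units.ext (mul_right_cancel₀ h0 (k1.symm.trans (one_mul _).symm))
        rw [e, ← hsg z ⟨(hTK z).1 h1, z.2⟩ l, tw.sg_iter (ser.mem i hi).1, hΓ.chi_smul, k2,
          _root_.one_zpow]
      rw [RS.eq_sum m, hΓ.chi_sum]
      simp only [hΓ.chi_smul, h2, _root_.one_zpow, Finset.prod_const_one, Units.val_one])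
    (by
      rintro s ⟨i, w, hw, hs⟩
      obtain ⟨t, ht, h1⟩ := ha _ ((Set.Finite.mem_toFinset _).2 ⟨⟨_, inv_mem hs.mem_W⟩, rfl⟩)
        fun c => by
          have k1 : ∀ j, 0 < R.B (R.α j) m := fun j => by
            have k := hR.pr_B m j
            have := mul_pos (hm j) (hR.B_pos (hR.sign _ (hR.simple j)).1)
            rw [hR.B_comm]
            omega
          obtain ⟨j, -, e⟩ := hR.Lg_α hw (Equiv.Perm.SameCycle.refl π i)
          have k2 := hR.B_inv hs.mem_W (R.α i) (w⁻¹ m)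
          rw [RS.app_inv, e, ← neg_one_smul ℤ, hR.B_smul, sub_eq_zero.1 c] at k2
          have := k1 i
          have := k1 j
          omega
      refine ⟨⟨t, ht.2⟩, (hTK _).2 ht.1, fun c => h1 ?_⟩
      have k1 := hΓ.chi_rep hR hs (w⁻¹ m) ht.1
      rw [RS.app_inv] at k1
      change hΓ.chi (w⁻¹ m - m) t = 1
      rw [sub_eq_add_neg, hΓ.chi_add, hΓ.chi_neg, ← k1, mul_inv_eq_one]
      exact Units.ext c)
  obtain ⟨i, hi, -⟩ := ser.cover _ ⟨hR.simple ⟨0, hR.pos⟩, RS.α_nonneg _⟩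
  have hn : 0 < n := by omega
  have hγ := (ser.mem 0 hn).1
  obtain ⟨e', he'⟩ := tw.len_dvd hγ
  have h5 := tw.lQ_mul hγ he'
  have h6 : e' ≤ 3 := (Nat.le_of_dvd tw.epos ⟨_, he'.trans (mul_comm _ _)⟩).trans tw.ele
  have := ser.le
  refine ⟨p, n', n, lQ R p π a (γ 0), e', _, ρ', _, _, _, _, _, κ', χ', rd, mf', by omega,
    by omega, tw.lQ_pos hγ, Nat.pos_of_mul_pos_left (h5 ▸ tw.fpos), by omega, ?_, ?_, ?_⟩ <;>
    rw [map_T sba hk]
  · rintro _ ⟨t, ht, rfl⟩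
    have k1 := (hfr _ ((hTK t).1 ht)).symm.trans (Function.iterate_fixed (hfix _ t.2) e)
    rw [← map_pow, h5, show t ^ (p ^ f - 1) = 1 from Subtype.ext (mul_right_cancel (b := t.1) (by
      rw [coe_pow, ← pow_succ, Nat.sub_add_cancel (by omega), k1, coe_one, one_mul])), map_one]
  · rintro _ ⟨t, ht, rfl⟩
    rw [hχ' 0 hn t ht]
    refine mul_right_cancel₀ (hΓ.chi (γ 0) t).ne_zero ?_
    rw [← pow_succ, Nat.sub_add_cancel (by have := hbig _ hγ; omega), one_mul]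
    exact congrArg Units.val (hQ _ hγ t ⟨(hTK t).1 ht, t.2⟩)
  · rw [coe_map, Set.image_image, Set.image_congr (hχ' 0 hn), himg,
      Set.ncard_image_of_injective _ Units.val_injective]
    exact (hc _ hγ).trans (Nat.mul_le_mul_right _ (by omega))

end Vale.Agent.P183BD
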