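import Vale.Agent.P183BD.FThm

/-!
P183: the block of the groups of Lie type with a bound.
-/

namespace Vale.Agent.P183BD

open Subgroup Matrix Vale.Agent.P183A Vale.Agent.P183NK Vale.Agent.P183CR Vale.Agent.P183AL

section ad
variable {n : ℕ} {k : Type} [Field k] {Y : Type} [Group Y]

/-- the conjugation action on matrices -/
def Ad (ρ : Y →* Matrix (Fin n) (Fin n) k) : Y →* Module.End k (Matrix (Fin n) (Fin n) k) where
  toFun g := (LinearMap.mulLeft k (ρ g)).comp (LinearMap.mulRight k (ρ g⁻¹))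
  map_one' := LinearMap.ext fun a => by simp
  map_mul' g h := LinearMap.ext fun a => by simp [mul_assoc]

variable {ρ : Y →* Matrix (Fin n) (Fin n) k}

lemma Ad_apply (g : Y) (a : Matrix (Fin n) (Fin n) k) : Ad ρ g a = ρ g * (a * ρ g⁻¹) := rfl

/-- the elements which act like linear combinations of elements of `E` -/
def env [Finite Y] {A : Type} [Ring A] [Algebra k A] (σ : Y →* A) (E : Subgroup Y) :
    Subgroup Y :=
  have hmul : ∀ a ∈ Submodule.span k (σ '' E), ∀ b ∈ Submodule.span k (σ '' E),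
      a * b ∈ Submodule.span k (σ '' E) := fun a ha b hb => by
    have h := Submodule.mul_mem_mul ha hb
    rw [Submodule.span_mul_span] at h
    refine Submodule.span_mono ?_ h
    rintro _ ⟨_, ⟨s, hs, rfl⟩, _, ⟨t, ht, rfl⟩, rfl⟩
    exact ⟨s * t, mul_mem hs ht, map_mul _ _ _⟩
  have hone : σ 1 ∈ Submodule.span k (σ '' E) := Submodule.subset_span ⟨1, one_mem _, rfl⟩
  { carrier := {t | σ t ∈ Submodule.span k (σ '' E)}
    one_mem' := hone
    mul_mem' := fun ha hb => by
      rw [Set.mem_ofPred_eq, map_mul]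
      exact hmul _ ha _ hb
    inv_mem' := fun {x} hx => by
      have h : ∀ i : ℕ, σ (x ^ i) ∈ Submodule.span k (σ '' E) := fun i => by
        induction i with
        | zero => rwa [pow_zero]
        | succ i ih => rw [pow_succ, map_mul]; exact hmul _ ih _ hx
      have e : x⁻¹ = x ^ (orderOf x - 1) := by
        refine inv_eq_of_mul_eq_one_right ?_
        rw [← pow_succ', Nat.sub_add_cancel (orderOf_pos x), pow_orderOf_eq_one]
      rw [Set.mem_ofPred_eq, e]
      exact h _ }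

/-- `E` is dense for the conjugation action -/
def Dense (ρ : Y →* Matrix (Fin n) (Fin n) k) (E : Subgroup Y) : Prop :=
  ∀ t, Ad ρ t ∈ Submodule.span k (Ad ρ '' E)

variable {E R : Subgroup Y}

lemma Dense.mono (h : Dense ρ E) (hE : E ≤ R) : Dense ρ R :=
  fun t => Submodule.span_mono (Set.image_mono hE) (h t)

lemma Dense.inv (h : Dense ρ E) {W : Submodule k (Matrix (Fin n) (Fin n) k)}
    (hW : ∀ e ∈ E, ∀ a ∈ W, Ad ρ e a ∈ W) (t : Y) : ∀ a ∈ W, Ad ρ t a ∈ W := by
  intro a ha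
  have h1 := h t
  generalize Ad ρ t = f at h1
  induction h1 using Submodule.span_induction with
  | mem _ ht =>
    obtain ⟨e, he, rfl⟩ := ht
    exact hW e he a ha
  | zero => exact W.zero_mem
  | add _ _ _ _ h1 h2 => exact W.add_mem h1 h2
  | smul c _ _ h1 => exact W.smul_mem c h1

lemma Dense.span [IsAlgClosed k] (h : Dense ρ E) (hρ : Full ρ) :
    Submodule.span k (ρ '' E) = ⊤ := by
  have h1 : Irr (rep (ρ.comp E.subtype)) := by
    refine ⟨hρ.irr.1, fun V hV => hρ.irr.2 V fun t w hw => ?_⟩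
    let W : Submodule k (Matrix (Fin n) (Fin n) k) :=
      { carrier := {a | ∀ v, a *ᵥ v ∈ V}
        zero_mem' := fun v => by simp
        add_mem' := fun ha hb v => by rw [add_mulVec]; exact V.add_mem (ha v) (hb v)
        smul_mem' := fun c a ha v => by rw [smul_mulVec]; exact V.smul_mem c (ha v) }
    have h2 := h.inv (W := W) (fun e he a ha v => by
      rw [Ad_apply, ← mulVec_mulVec, ← mulVec_mulVec]
      exact hV ⟨e, he⟩ _ (ha _)) t (vecMulVec w (Pi.single ⟨0, hρ.1⟩ 1)) (fun v => by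
        rw [vecMulVec_mulVec, op_smul_eq_smul]
        exact V.smul_mem _ hw) (ρ t *ᵥ Pi.single ⟨0, hρ.1⟩ 1)
    rw [Ad_apply, ← mulVec_mulVec, ← mulVec_mulVec, mulVec_mulVec _ (ρ t⁻¹), ← map_mul,
      inv_mul_cancel, map_one, one_mulVec, vecMulVec_mulVec] at h2
    simpa [rep_apply] using h2
  have h2 := (full_of_irr h1).2
  rwa [MonoidHom.coe_comp, Set.range_comp, coe_subtype, Subtype.range_coe] at h2

lemma Dense.cent [IsSimpleGroup Y] (h : Dense ρ E) (hρ : Function.Injective ρ)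
    (hY : ∃ a b : Y, a * b ≠ b * a) (hR : R ≠ ⊥) (hn : ∀ e ∈ E, ∀ r ∈ R, e * r * e⁻¹ ∈ R) {t : Y}
    (ht : ∀ r ∈ R, r * t = t * r) : t = 1 := by
  have h1 := h.inv (W := Submodule.span k (ρ '' R)) (fun e he a ha => by
    refine (Submodule.span_le (p := (Submodule.span k (ρ '' R)).comap (Ad ρ e))).2 ?_ ha
    rintro _ ⟨r, hr, rfl⟩
    exact Submodule.subset_span ⟨_, hn e he r hr, by simp [Ad_apply, mul_assoc]⟩)
  let C : Subgroup Y :=
    { carrier := {g | ∀ a ∈ Submodule.span k (ρ '' R), Ad ρ g a = a}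
      one_mem' := fun a _ => by simp
      mul_mem' := fun ha hb a h => by rw [map_mul, Module.End.mul_apply, hb a h, ha a h]
      inv_mem' := fun {g} hg a h => by
        conv_lhs => rw [← hg a h, ← Module.End.mul_apply, ← map_mul, inv_mul_cancel, map_one]
        rfl }
  have hC : C.Normal := ⟨fun g hg s a ha => by
    rw [map_mul, map_mul, Module.End.mul_apply, Module.End.mul_apply, hg _ (h1 _ a ha),
      ← Module.End.mul_apply, ← map_mul, mul_inv_cancel, map_one, Module.End.one_apply]⟩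
  rcases hC.eq_bot_or_eq_top with h0 | h0
  · have h2 : t ∈ C := fun a ha => by
      refine LinearMap.eqOn_span (f := Ad ρ t) (g := LinearMap.id) ?_ ha
      rintro _ ⟨r, hr, rfl⟩
      rw [Ad_apply, ← map_mul, ← map_mul, ← mul_assoc, ← ht r hr]
      simp
    rwa [h0, mem_bot] at h2
  · exfalso
    have h2 : R ≤ center Y := fun r hr => mem_center_iff.2 fun g => by
      have h3 : g ∈ C := h0 ▸ mem_top g
      have h4 := h3 _ (Submodule.subset_span ⟨r, hr, rfl⟩)
      rw [Ad_apply, ← map_mul, ← map_mul] at h4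
      calc g * r = g * (r * g⁻¹) * g := by group
        _ = _ := by rw [hρ h4]
    rcases (inferInstance : (center Y).Normal).eq_bot_or_eq_top with h3 | h3
    · exact hR (le_bot_iff.1 (h3 ▸ h2))
    · obtain ⟨a, b, hab⟩ := hY
      exact hab (mem_center_iff.1 (h3 ▸ mem_top b) a)

end ad

theorem wstep (c : ℕ) : WStep (PhiL c) (GenLie c) 2 (1 + (c * c * (c * c) + 1)) := by
  intro G _ _ H a z m j hm hH hG hs hΦ
  obtain ⟨p, f, n, e, hp, ρ, B, M, U, R, hL⟩ := hΦ.1
  have nz := hH.nomod hG.lt.le le_rfl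
  have hY : ∃ a b : EE H z, a * b ≠ b * a := by
    by_contra hcon
    push Not at hcon
    exact EE_not_cm nz fun x hx y hy => congrArg Subtype.val (hcon ⟨x, hx⟩ ⟨y, hy⟩)
  have mono : ∀ v w, a ≤ v → v ≤ w → w ≤ z → EE H v ≤ EE H w := fun v w k1 k2 k3 =>
    EE_mono (hH.nomod k1 (k2.trans k3)) (hH.nomod (k1.trans k2) k3) k2
  let W : Subgroup G → Submodule (kk p) _ := fun K =>
    Submodule.span (kk p) (Ad ρ '' (EE H K).subgroupOf (EE H z))
  rw [← add_assoc] at hG
  obtain ⟨a₁, h1, hG₁, hD⟩ := Good.potential' (fun K => Module.finrank (kk p) (W K))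
    (fun K => Dense ρ ((EE H K).subgroupOf (EE H z))) (c * c * (c * c))
    (fun K _ => (Submodule.finrank_le _).trans (by
      simpa [Module.finrank_linearMap, Module.finrank_matrix] using
        Nat.mul_le_mul (Nat.mul_le_mul hL.dim hL.dim) (Nat.mul_le_mul hL.dim hL.dim)))
    (fun a' i h1 h2 h3 => by
      obtain ⟨a'', k1, k2, k3⟩ := h2.raise_one hm
        (fun K => Module.finrank (kk p) (W a') < Module.finrank (kk p) (W K)) (by
        intro col y hA i j hi hj
        by_contra hij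
        have key : ∀ i, ¬ Module.finrank (kk p) (W a') < Module.finrank (kk p) (W (y i)) →
            (EE H (y i)).subgroupOf (EE H z) ≤
              env (k := kk p) (Ad ρ) ((EE H a').subgroupOf (EE H z)) := fun i hi t ht => by
          have e : W a' = W (y i) := Submodule.eq_of_le_of_finrank_le (Submodule.span_mono
            (Set.image_mono (comap_mono (mono _ _ h1 (hA.lt_z i).le (hA.z_lt i).le))))
            (not_lt.1 hi)
          change Ad ρ t ∈ W a'
          rw [e]
          exact Submodule.subset_span ⟨t, ht, rfl⟩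
        have k1 := fun i => h1.trans (hA.lt_z i).le
        have k2 := fun i => (hA.z_lt i).le
        have e1 := hA.sup_eq hij le_rfl (hA.z_lt i) le_rfl (hA.z_lt j)
        have e2 := EE_sup (hH.nomod (k1 i) (k2 i)) (hH.nomod (k1 j) (k2 j)) (e1.symm ▸ nz)
        rw [e1] at e2
        have e3 := sup_le (key i hi) (key j hj)
        rw [← subgroupOf_sup (mono _ _ (k1 i) (k2 i) le_rfl) (mono _ _ (k1 j) (k2 j) le_rfl),
          ← e2, subgroupOf_self] at e3
        exact h3 fun t => e3 (mem_top t))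
      exact ⟨a'', k1.le, k2, Or.inr k3⟩) hG
  have cent : ∀ K R' : Subgroup G, a₁ ≤ K → K ≤ z → R' ≤ EE H z → R' ≠ ⊥ → Nm (EE H K) R' →
      centralizer (R' : Set G) ⊓ EE H z = ⊥ := by
    intro K R' k1 k2 k3 k4 k5
    refine eq_bot_iff.2 fun t ht => ?_
    have := (hD.mono (comap_mono (mono _ _ h1 k1 k2))).cent (R := R'.subgroupOf (EE H z)) hL.inj hY
      (fun e => k4 (by rwa [subgroupOf_eq_bot, disjoint_iff, inf_eq_left.2 k3] at e))
      (fun e he r hr => k5 e he r hr) (t := ⟨t, ht.2⟩) fun r hr => Subtype.ext (ht.1 r hr)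
    exact congrArg Subtype.val this
  obtain ⟨a', k1, k2, k3⟩ := hG₁.raise_one hm (fun K => CC H K ⊓ EE H z = ⊥) (by
    intro col y hA i j hi hj
    by_contra hij
    have ha₁ := hH.nomod h1 hA.lt.le
    have key : ∀ i, CC H (y i) ⊓ EE H z ≠ ⊥ → ∃ R', R' ≤ H ∧ R' ≤ EE H z ∧ Nm (y i) R' ∧
        ¬ Cm R' R' ∧ Cr R' ∧ centralizer (R' : Set G) ⊓ EE H z = ⊥ := fun i hi => by
      obtain ⟨R', r1, r2, r3, r4⟩ := exists_mn hi
        ((nm_CC H (y i)).inf ((nm_EE H z).mono (hA.z_lt i).le))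
      have r5 := cent a₁ R' le_rfl hA.lt.le (r1.trans inf_le_right) r2
        (r3.mono ((EE_le ha₁).trans (hA.lt_z i).le))
      have r6 : ¬ Cm R' R' := fun e =>
        r2 (le_bot_iff.1 ((le_inf (cm_iff.1 e) (r1.trans inf_le_right)).trans r5.le))
      exact ⟨R', r1.trans (inf_le_left.trans (CC_le _ _)), r1.trans inf_le_right, r3, r6,
        cr_of_mn (fun V h h' => r4 V h.1 h') r3 r6, r5⟩
    obtain ⟨R₁, r1, r2, r3, r4, r5, r6⟩ := key i hi
    obtain ⟨R₂, s1, s2, s3, -, s5, s6⟩ := key j hj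
    obtain rfl := core_eq r5 s5 (r1.trans ha₁.lt.le) (s1.trans ha₁.lt.le)
      (r3.mono (hA.lt_z i).le) (s3.mono (hA.lt_z j).le) r2 s2 r6 s6
    have e1 := hA.sup_eq hij le_rfl (hA.z_lt i) le_rfl (hA.z_lt j)
    exact r4 ((cm_CC_of_simple nz hs).mono (le_CC r1 ((r3.sup_left s3).mono e1.ge)) r2))
  have na := hH.nomod (h1.trans k1.le) k2.lt.le
  have hle := mono _ _ (h1.trans k1.le) k2.lt.le le_rfl
  refine ⟨a', h1.trans k1.le, k2, ⟨p, f, n, e, hp, ρ, B, M, U, R, hL,
    (hD.mono (comap_mono (mono _ _ h1 k1.le k2.lt.le))).span hL.full⟩,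
    simple_EE na ((nm_EE H z).mono k2.lt.le) hle k3 fun V v1 v2 v3 => ?_,
    cent a' _ k1.le k2.lt.le hle (EE_ne_bot na) (Nm.of_le le_rfl)⟩
  exact le_bot_iff.1 ((le_inf inf_le_right (inf_le_left.trans hle)).trans
    (cent a' V k1.le k2.lt.le (v1.trans hle) v3 v2).le)

theorem schreier (c n : ℕ) : Schreier fun S _ => IsLie c S ∧ n < Nat.card S := by
  rintro G _ _ T _ - hc ⟨⟨-, -, -, -, -, -, -, -, -, -, -, -, -, -, -, h⟩, -⟩
  have hn : (MulAut.conj : T →* MulAut T).range.Normal := ⟨by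
    rintro _ ⟨t, rfl⟩ α
    exact ⟨α t, MulEquiv.ext fun x => by simp⟩⟩
  have := h hn
  let φ := (QuotientGroup.mk' (MulAut.conj : T →* MulAut T).range).comp
    (MulAut.conjNormal : G →* MulAut T)
  have hk : φ.ker ≤ T := fun g hg => by
    obtain ⟨t, ht⟩ := (QuotientGroup.eq_one_iff _).1 hg
    have h1 : (t : G)⁻¹ * g ∈ centralizer (T : Set G) := fun x hx => by
      have h2 := congrArg (fun α : MulAut T => (α ⟨x, hx⟩ : G)) ht
      simp only [MulAut.conj_apply, coe_mul, coe_inv, MulAut.conjNormal_apply] at h2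
      calc x * ((t : G)⁻¹ * g) = (t : G)⁻¹ * (t * x * (t : G)⁻¹) * g := by group
        _ = _ := by rw [h2]; group
    rw [hc, mem_bot, inv_mul_eq_one] at h1
    exact h1 ▸ t.2
  have := Group.isSolvable_of_isSolvable_injective (QuotientGroup.kerLift_injective φ)
  exact Group.isSolvable_of_surjective (f := QuotientGroup.map φ.ker T (MonoidHom.id G) hk)
    (QuotientGroup.map_surjective_of_surjective _ _ _ QuotientGroup.mk_surjective _)

theorem steps (c : ℕ) {Φ : Fam} (h : ∀ (S : Type) [Group S], Φ S → PhiL c S) :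
    ∃ (Gen : GenT) (m₀ c m j : ℕ), 0 < m ∧ WStep Φ Gen m₀ c ∧ FThm Φ Gen m j :=
  ⟨GenLie c, _, _, _, _, by omega,
    fun G _ _ H a z m k h1 h2 h3 h4 h5 => wstep c G H a z m k h1 h2 h3 h4 (h _ h5),
    fun G _ _ H T x b hr hmt => fthm c G H T x b hr (hmt.mono fun _ _ k => ⟨h _ k.1, k.2⟩)⟩

theorem blockLie : BlockLie := fun c =>
  ⟨_, schreier c _, steps c fun _ _ h => ⟨exists_ld h.1, h.2⟩⟩

end Vale.Agent.P183BD
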