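import Vale.Agent.P183BD.Out
import Vale.Agent.P183BD.WStep
import Vale.Agent.P183NC.Main

/-!
P183: the internal class of groups of Lie type and its block.
-/

namespace Vale.Agent.P183BD

open Subgroup Vale.Agent.P240.H195 Vale.Agent.P183CR Vale.Agent.P183NK

/-- the internal class of groups of Lie type with bound `c` -/
def IsLie2 (c : ℕ) (S : Type) [Group S] : Prop :=
  ∃ (p n m f e : ℕ) (_ : Fact p.Prime) (ρ : S →* Matrix (Fin n) (Fin n) (kk p))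
    (B N U : Subgroup S) (R : Set S) (D : ℕ → Subgroup S) (κ χ : ℕ → S → kk p),
    RD p ρ B N U R ∧ MF p m (B ⊓ N) U D κ χ ∧ n ≤ c ∧ m ≤ c ∧ 0 < f ∧ 0 < e ∧ e ≤ c ∧
    (∀ t ∈ B ⊓ N, t ^ (p ^ (f * e) - 1) = 1) ∧ (∀ t ∈ B ⊓ N, χ 0 t ^ (p ^ f - 1) = 1) ∧
    p ^ f - 1 ≤ c * (χ 0 '' ((B ⊓ N : Subgroup S) : Set S)).ncard

theorem IsLie2.hasLD {c : ℕ} {S : Type} [Group S] [Finite S] [IsSimpleGroup S]
    (h : IsLie2 c S) : HasLD c S := by
  obtain ⟨p, n, m, f, e, hp, ρ, B, N, U, R, D, κ, χ, h1, h2, hn, -, hf, he, hec, h3, h4, h5⟩ := h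
  have hm : 0 < m := Nat.pos_of_ne_zero fun e => h1.sba.toSB.U_ne_bot (by
    rw [← h2.top, e, h2.zero])
  have hinj : ∀ x ∈ D 1, ∀ y ∈ D 1, κ 0 x = κ 0 y → x = y := fun x hx y hy e => by
    have := h2.eq_of_κ hm hx hy e
    rwa [h2.zero, mem_bot, inv_mul_eq_one] at this
  obtain ⟨x₀, hx₀, h0⟩ := h2.nz 0 hm
  refine ⟨p, f, n, e, hp, ρ, B, N, U, R, h1, ?_, hf, hn, he, hec, h3, ?_,
    fun k _ _ d σ hσ hk => h5.trans (Nat.mul_le_mul_left _ (le_trans ?_ (index_le_sq σ hσ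
      (T := B ⊓ N) (A := D 1) (fun x hx y hy => h1.sba.comm x hx.1 hx.2 y hy.1 hy.2)
      (fun e => ?_) (fun x hx y hy => hinj _ (mul_mem hx hy) _ (mul_mem hy hx) ?_)
      (fun x hx => ?_) (h2.norm 1) fun A hA hn => or_iff_not_imp_left.2 fun hb => ?_)))⟩
  · obtain ⟨s, hs⟩ := h1.sba.nonempty
    obtain ⟨v, hv, e⟩ := h1.reg
    exact inj_of_simple ρ (g := s) fun k => h1.sba.not_mem hs (e ▸ ⟨1, by simp [rep_apply, k]⟩)
  · obtain ⟨t, ht, hg⟩ := h2.gen hm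
    have hq : 0 < p ^ f - 1 := Nat.sub_pos_of_lt (Nat.one_lt_pow hf.ne' hp.out.one_lt)
    obtain ⟨j, hj⟩ := orderOf_dvd_of_pow_eq_one (h4 t ht)
    have ho : 0 < orderOf (χ 0 t) := Nat.pos_of_mul_pos_right (hj ▸ hq)
    have k1 : (χ 0 '' ((B ⊓ N : Subgroup S) : Set S)).ncard ≤ orderOf (χ 0 t) := by
      refine (Set.ncard_le_ncard (t := (χ 0 t ^ ·) '' (Finset.range (orderOf (χ 0 t)))) ?_).trans
        ((Set.ncard_image_le).trans (by simp))
      rintro _ ⟨s, hs, rfl⟩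
      obtain ⟨i, hi⟩ := hg s hs
      exact ⟨i % _, Finset.mem_coe.2 (Finset.mem_range.2 (Nat.mod_lt _ ho)),
        (pow_mod_orderOf _ _).trans hi.symm⟩
    refine ⟨t, ht, j, Nat.pos_of_mul_pos_left (hj ▸ hq), ?_, ?_⟩
    · refine Nat.le_of_mul_le_mul_right ?_ ho
      rw [mul_comm, ← hj]
      exact h5.trans (Nat.mul_le_mul_left _ k1)
    · rw [hj, mul_comm]
      exact Nat.mul_dvd_mul_left _
        ((orderOf_map_dvd (h2.hom hm) ⟨t, ht⟩).trans (orderOf_coe _).symm.dvd)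
  · refine (Set.ncard_le_ncard (t := Set.range fun q : _ ⧸ (centralizer (D 1 : Set S)).subgroupOf
      (B ⊓ N) => χ 0 q.out) ?_).trans ?_
    · rintro _ ⟨s, hs, rfl⟩
      obtain ⟨z, hz⟩ := QuotientGroup.mk_out_eq_mul
        ((centralizer (D 1 : Set S)).subgroupOf (B ⊓ N)) ⟨s, hs⟩
      refine ⟨QuotientGroup.mk ⟨s, hs⟩, ?_⟩
      have k1 := h2.conj 0 hm _ z.1.2 x₀ hx₀
      have k0 : x₀ * z.1.1 = z.1.1 * x₀ := z.2 x₀ hx₀
      rw [← k0, mul_inv_cancel_right] at k1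
      have k2 : h2.hom hm z.1 = 1 := mul_right_cancel₀ h0 (k1.symm.trans (one_mul _).symm)
      change h2.hom hm _ = h2.hom hm ⟨s, hs⟩
      rw [hz, map_mul, k2, mul_one]
    · rw [← Set.image_univ]
      exact (Set.ncard_image_le).trans (Set.ncard_univ _).le
  · rw [e, mem_bot] at hx₀
    exact h0 (by rw [hx₀, add_one (h2.add 0 hm)])
  · rw [h2.add 0 hm x hx y hy, h2.add 0 hm y hy x hx, add_comm]
  · obtain ⟨i, hi⟩ := h1.sba.exists_pow (h2.le_U hm hx)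
    exact ⟨p ^ i, by rw [Nat.cast_pow]; exact pow_ne_zero _ hk, hi⟩
  · obtain ⟨⟨x, hx⟩, hx1⟩ := ne_bot_iff_exists_ne_one.1 hb
    refine le_antisymm hA fun y hy => ?_
    obtain ⟨z, hz, e⟩ := h2.span 0 hm x (hA hx) y hy fun k => hx1 (Subtype.ext
      (hinj _ (hA hx) _ (one_mem _) (k.trans (add_one (h2.add 0 hm)).symm)))
    have ha : ∀ x ∈ A, ∀ y ∈ A, κ 0 (x * y) = κ 0 x + κ 0 y := fun x hx y hy =>
      h2.add 0 hm x (hA hx) y (hA hy)
    have k1 : Subring.closure (χ 0 '' ((B ⊓ N : Subgroup S) : Set S)) ≤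
        (rel A ha ha).comap ((RingHom.id _).prod (RingHom.id _)) := by
      rw [Subring.closure_le]
      rintro _ ⟨t, ht, rfl⟩ y hy
      exact ⟨_, hn t ht y hy, h2.conj 0 hm t ht y (hA hy), h2.conj 0 hm t ht y (hA hy)⟩
    obtain ⟨y', hy', e1, -⟩ := k1 hz x hx
    exact hinj _ (hA hy') _ hy (e1.trans e.symm) ▸ hy'

theorem schreierW (c n : ℕ) : SchreierW fun S _ => IsLie2 c S ∧ n < Nat.card S := by
  refine ⟨((c + 1) ^ c).factorial, ?_⟩
  rintro G _ _ T _ hT hc ⟨⟨p, n, m, f, e, hp, ρ, B, N, U, R, D, κ, χ, h1, h2, -, hm, -⟩, -⟩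
  obtain ⟨A, hA, hi⟩ := exists_J h1.sba h2
  have hn : (MulAut.conj : T →* MulAut T).range.Normal := ⟨by
    rintro _ ⟨t, rfl⟩ α
    exact ⟨α t, MulEquiv.ext fun x => by simp⟩⟩
  let q := QuotientGroup.mk' (MulAut.conj : T →* MulAut T).range
  let J := ((MulAut.conj : T →* MulAut T).range ⊔ A).comap (MulAut.conjNormal : G →* MulAut T)
  have hJ : J.index ≤ (c + 1) ^ c := by
    rw [index_comap]
    exact (relIndex_le_of_le_right le_top (by simpa using index_ne_zero_of_finite)).trans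
      ((relIndex_top_right _).trans_le (hi.trans ((Nat.pow_le_pow_left (by omega) _).trans
        (Nat.pow_le_pow_right c.succ_pos hm))))
  refine ⟨J.normalCore, inferInstance, le_trans (Nat.le_of_dvd (Nat.factorial_pos _) ?_)
    (Nat.factorial_le hJ), ?_⟩
  · rw [normalCore_eq_ker, index_ker, index_eq_card, ← Nat.card_perm]
    exact card_subgroup_dvd_card _
  obtain ⟨l, hl⟩ := Group.isSolvable_of_surjective (q.subgroupMap_surjective A)
  have k1 : ∀ g : J.normalCore, (q.comp (MulAut.conjNormal.comp J.normalCore.subtype)) g ∈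
      A.map q := fun g => by
    have := mem_map_of_mem q (mem_comap.1 (J.normalCore_le g.2))
    rwa [Subgroup.map_sup, (map_eq_bot_iff (f := q) _).2 (QuotientGroup.ker_mk' _).ge,
      bot_sup_eq] at this
  refine ⟨l, fun g hg => ?_⟩
  have k2 := map_derivedSeries_le_derivedSeries (MonoidHom.codRestrict _ _ k1) l ⟨g, hg, rfl⟩
  rw [hl, mem_bot] at k2
  obtain ⟨t, ht⟩ := (QuotientGroup.eq_one_iff _).1 (congrArg Subtype.val k2)
  have k3 : (t : G)⁻¹ * g ∈ centralizer (T : Set G) := fun x hx => by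
    have h2 : (t : G) * x * (t : G)⁻¹ = g * x * (g : G)⁻¹ :=
      congrArg (fun α : MulAut T => (α ⟨x, hx⟩ : G)) ht
    calc x * ((t : G)⁻¹ * g) = (t : G)⁻¹ * (t * x * (t : G)⁻¹) * g := by group
      _ = _ := by rw [h2]; group
  rw [hc, mem_bot, inv_mul_eq_one] at k3
  exact k3 ▸ t.2

theorem blockLie2 (c : ℕ) : ∃ n, BlockW fun S _ => IsLie2 c S ∧ n < Nat.card S :=
  ⟨_, schreierW c _, steps c fun _ _ h => ⟨h.1.hasLD, h.2⟩⟩

end Vale.Agent.P183BD
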