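import Vale.Agent.P183BD.BNG

/-!
P183: the canonical torus attached to an irreducible subgroup with a split BN-pair.
-/

namespace Vale.Agent.P183BD

open Subgroup Matrix Vale.Agent.P240.H195 Vale.Agent.P183CR

variable {p n : ℕ} {k : Type} [Field k] {Y : Type} [Group Y]
  {ρ : Y →* Matrix (Fin n) (Fin n) k} {B M U : Subgroup Y} {S : Set Y}

/-- the representation on column vectors -/
noncomputable def rep (ρ : Y →* Matrix (Fin n) (Fin n) k) : Representation k Y (Fin n → k) :=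
  (Matrix.toLinAlgEquiv' (R := k) (n := Fin n)).toMulEquiv.toMonoidHom.comp ρ

lemma rep_apply (g : Y) (v : Fin n → k) : rep ρ g v = ρ g *ᵥ v := rfl

/-- the matrices span the matrix algebra -/
def Full (ρ : Y →* Matrix (Fin n) (Fin n) k) : Prop :=
  0 < n ∧ Submodule.span k (Set.range ρ) = ⊤

lemma Full.irr (h : Full ρ) : Irr (rep ρ) := by
  have : Nonempty (Fin n) := ⟨⟨0, h.1⟩⟩
  refine AbsIrr.irr ⟨inferInstance, ?_⟩
  have e : Set.range (rep ρ) = (Matrix.toLin' (R := k) (m := Fin n) (n := Fin n)).toLinearMap ''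
      Set.range ρ := by
    rw [← Set.range_comp]
    rfl
  rw [e, ← Submodule.map_span, h.2, Submodule.map_top, LinearEquiv.range]

lemma full_of_irr [IsAlgClosed k] (h : Irr (rep ρ)) : Full ρ := by
  refine ⟨?_, ?_⟩
  · rcases Nat.eq_zero_or_pos n with rfl | hn
    · exact absurd h.1 (not_nontrivial _)
    · exact hn
  have e : Set.range ρ = (LinearMap.toMatrix' (R := k) (m := Fin n) (n := Fin n)).toLinearMap ''
      Set.range (rep ρ) := by
    rw [← Set.range_comp]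
    congr 1
    funext g
    exact (LinearMap.toMatrix'_toLin' (ρ g)).symm
  rw [e, ← Submodule.map_span, h.absIrr.2, Submodule.map_top, LinearEquiv.range]

/-- a split BN-pair and a representation whose highest weight is regular -/
structure RD (p : ℕ) (ρ : Y →* Matrix (Fin n) (Fin n) k) (B M U : Subgroup Y) (S : Set Y) :
    Prop where
  sba : SBA p B M U S
  full : Full ρ
  reg : ∃ v : Fin n → k, v ≠ 0 ∧ lineStab (rep ρ) v = B

variable {X : Type} [Group X] {B' M' U' : Subgroup X} {S' : Set X}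

lemma Full.mono {W : Type} [Group W] {κ : W →* Y} {j : X →* W} (h : Full (ρ.comp (κ.comp j))) :
    Full (ρ.comp κ) :=
  ⟨h.1, top_le_iff.1 (h.2.ge.trans (Submodule.span_mono (by
    rintro _ ⟨x, rfl⟩
    exact ⟨j x, rfl⟩)))⟩

lemma Full.conj {ι : X →* Y} (h : Full (ρ.comp ι)) (g : Y) :
    Full (ρ.comp ((MulAut.conj g⁻¹).toMonoidHom.comp ι)) := by
  refine ⟨h.1, eq_top_iff.2 ?_⟩
  rintro a -
  have hx : ρ g * a * ρ g⁻¹ ∈ Submodule.span k (Set.range (ρ.comp ι)) :=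
    h.2 ▸ Submodule.mem_top
  have e : a = ρ g⁻¹ * (ρ g * a * ρ g⁻¹) * ρ g := by
    simp only [mul_assoc, ← map_mul, inv_mul_cancel, map_one, mul_one]
    rw [← mul_assoc, ← map_mul, inv_mul_cancel, map_one, one_mul]
  rw [e]
  generalize ρ g * a * ρ g⁻¹ = a at hx
  induction hx using Submodule.span_induction with
  | mem t ht =>
    obtain ⟨x, rfl⟩ := ht
    exact Submodule.subset_span ⟨x, by simp⟩
  | zero => simp
  | add x y _ _ h1 h2 => rw [mul_add, add_mul]; exact Submodule.add_mem _ h1 h2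
  | smul c x _ h1 => rw [mul_smul_comm, smul_mul_assoc]; exact Submodule.smul_mem _ c h1

variable [IsAlgClosed k] [CharP k p] [Finite X] [Finite Y]

omit [Finite Y] in
/-- an element which conjugates the image of `U'` into `U` lies in `B` -/
lemma RD.mem_B (h : RD p ρ B M U S) (h' : SBA p B' M' U' S') {ι : X →* Y}
    (hs : Full (ρ.comp ι)) (hU : ∀ u ∈ U', ι u ∈ U) {y : Y}
    (hy : ∀ u ∈ U', y⁻¹ * ι u * y ∈ U) : y ∈ B := by
  obtain ⟨v, hv0, hB⟩ := h.reg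
  have hv := h.sba.fixU_of_eig hB.ge
  obtain ⟨c, hc⟩ := h'.fix_line (h'.good hs.irr) (v := v) (x := rep ρ y v)
    (fun u hu => hv _ (hU u hu)) hv0 (fun u hu => by
      have h1 := congrArg (rep ρ y) (hv _ (hy u hu))
      rw [← rho_mul] at h1
      change rep ρ (ι u) (rep ρ y v) = _
      rw [← rho_mul, ← h1]
      congr 2
      group)
  rw [← hB]
  exact mem_lineStab_of hv0 hc

lemma RD.le_U (h : RD p ρ B M U S) (h' : SBA p B' M' U' S') {ι : X →* Y}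
    (hs : Full (ρ.comp ι)) (hU : ∀ u ∈ U', ι u ∈ U)
    {P : Subgroup Y} (hP : IsPGroup p P) (hP' : ∀ u ∈ U', ι u ∈ P) : P ≤ U := by
  obtain ⟨g, hg⟩ := conj_le h.sba.toSBP hP
  have hgB := h.mem_B h' hs hU (y := g) fun u hu => hg _ (hP' u hu)
  intro x hx
  have := h.sba.normal g hgB _ (hg x hx)
  simpa [mul_assoc] using this

lemma RD.map_B (h : RD p ρ B M U S) (h' : SBA p B' M' U' S') {ι : X →* Y}
    (hs : Full (ρ.comp ι)) (hU : ∀ u ∈ U', ι u ∈ U)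
    (β : MulAut Y) (hβ : ∀ u ∈ U', β (ι u) ∈ U) (x : Y) (hx : x ∈ B) : β x ∈ B := by
  have h1 : U.comap β.toMonoidHom ≤ U :=
    h.le_U h' hs hU (h.sba.pgroup.comap_of_injective _ β.injective) hβ
  have h2 : U.comap β.toMonoidHom = U := by
    refine eq_of_le_of_card_ge h1 (Nat.card_le_card_of_injective
      (fun u : U => (⟨β⁻¹ u, by simp [mem_comap]⟩ : U.comap β.toMonoidHom)) fun a b hab => ?_)
    exact Subtype.ext (β⁻¹.injective (congrArg Subtype.val hab))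
  have h3 : ∀ y, β y ∈ U ↔ y ∈ U := fun y => by
    conv_rhs => rw [← h2]
    rfl
  refine h.sba.mem_B_of_norm h.sba.prime fun u hu => ?_
  have h4 := (h3 _).2 (h.sba.norm_U' hx ((h3 (β⁻¹ u)).1 (by simpa using hu)))
  simpa using h4

lemma RD.key (h : RD p ρ B M U S) (h' : SBA p B' M' U' S') {ι : X →* Y}
    (hs : Full (ρ.comp ι)) (hU : ∀ u ∈ U', ι u ∈ U) {m₀ : X} (hm₀ : h'.toBN0.Long m₀) :
    ∃ u : Y, ∀ s, s ∈ B → (ι m₀)⁻¹ * s * ι m₀ ∈ B → u⁻¹ * s * u ∈ B ⊓ M := by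
  obtain ⟨v, hv0, hB⟩ := h.reg
  have hv := h.sba.fixU_of_eig hB.ge
  obtain ⟨φ, hφ, hφ0⟩ := h.sba.exists_fix h.full.irr.dual
  obtain ⟨n₀, hn₀⟩ := h.sba.toBN0.exists_long
  have h1 := h'.coeff_long_ne (h'.good hs.irr) (v := v) (fun u hu => hv _ (hU u hu)) hv0 (f := φ)
    (fun u hu => by
      have h2 := hφ _ (hU u hu)
      refine LinearMap.ext fun x => ?_
      have h3 := congrArg (fun ψ : Module.Dual k (Fin n → k) => ψ x) h2
      simp only [dual_app] at h3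
      rw [dual_app, ← h3, ← map_inv]
      rfl) hφ0 hm₀
  obtain ⟨u, hu, b, hb, e⟩ :=
    (h.sba.coeff_ne_iff' (h.sba.good h.full.irr) hv hv0 hφ hφ0 hn₀ (ι m₀)).1 h1
  rw [hB] at hb
  refine ⟨u, fun s h2 h3 => ?_⟩
  have huB := h.sba.le hu
  have h4 := mul_mem (mul_mem (inv_mem huB) h2) huB
  refine ⟨h4, torus_mem h.sba.toSBP hn₀ h4 ?_⟩
  have e2 : n₀⁻¹ * (u⁻¹ * s * u) * n₀ = b * ((ι m₀)⁻¹ * s * ι m₀) * b⁻¹ := by
    rw [e]
    group
  rw [e2]
  exact mul_mem (mul_mem hb h3) (inv_mem hb)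

/-- the properties of the canonical torus -/
structure TorP (p : ℕ) (ι : X →* Y) (U' : Subgroup X) (m₀ : X) (T : Subgroup Y) : Prop where
  comm : ∀ x ∈ T, ∀ y ∈ T, x * y = y * x
  ord : ∀ s ∈ T, ∃ m : ℕ, ¬ p ∣ m ∧ s ^ m = 1
  inv : ∀ β : MulAut Y, (∀ x ∈ U', ∃ x' ∈ U', β (ι x) = ι x') →
    (∀ x ∈ U', ∃ x' ∈ U', β (ι (m₀ * x * m₀⁻¹)) = ι (m₀ * x' * m₀⁻¹)) → ∀ s ∈ T, β s ∈ T
  sub : ∀ (W : Type) [Group W] [Finite W] (B₁ M₁ U₁ : Subgroup W) (S₁ : Set W),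
    SBA p B₁ M₁ U₁ S₁ → ∀ (κ : W →* Y) (j : X →* W), κ.comp j = ι →
    ∀ t ∈ B₁ ⊓ M₁, ∃ g : W, κ (g * t * g⁻¹) ∈ T

lemma RD.torus_aux (h : RD p ρ B M U S) (h' : SBA p B' M' U' S') {ι : X →* Y}
    (hs : Full (ρ.comp ι)) (hU : ∀ u ∈ U', ι u ∈ U) {m₀ : X} (hm₀ : h'.toBN0.Long m₀) :
    TorP p ι U' m₀ (B ⊓ B.comap (MulAut.conj (ι m₀)⁻¹).toMonoidHom) := by
  obtain ⟨u, hu⟩ := h.key h' hs hU hm₀
  have hm : ∀ s, s ∈ B ⊓ B.comap (MulAut.conj (ι m₀)⁻¹).toMonoidHom ↔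
      s ∈ B ∧ (ι m₀)⁻¹ * s * ι m₀ ∈ B := fun s => by simp [mem_comap]
  have hu' := fun s hs => hu s ((hm s).1 hs).1 ((hm s).1 hs).2
  refine ⟨fun x hx y hy => ?_, fun s hs => ⟨_, h.sba.coprime, ?_⟩, fun β h1 h2 s hsT => ?_, ?_⟩
  · have := h.sba.comm _ (hu' x hx).1 (hu' x hx).2 _ (hu' y hy).1 (hu' y hy).2
    simp only [← mul_assoc, mul_inv_cancel_right, mul_left_inj] at this
    simpa [mul_assoc] using this
  · have h1 := congrArg Subtype.val (pow_card_eq_one' (x := (⟨_, hu' s hs⟩ : (B ⊓ M : Subgroup Y))))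
    have h2 : (u⁻¹ * s * u⁻¹⁻¹) ^ Nat.card (B ⊓ M : Subgroup Y) = 1 := by simpa using h1
    rw [conj_pow] at h2
    exact conj_eq_one_iff.1 h2
  · rw [hm] at hsT ⊢
    refine ⟨h.map_B h' hs hU β (fun x hx => ?_) s hsT.1, ?_⟩
    · obtain ⟨x', hx', e⟩ := h1 x hx
      rw [e]
      exact hU _ hx'
    · have h4 := h.map_B h' hs hU ((MulAut.conj (ι m₀))⁻¹ * β * MulAut.conj (ι m₀))
        (fun x hx => by
          obtain ⟨x', hx', e⟩ := h2 x hx
          have e2 : ((MulAut.conj (ι m₀))⁻¹ * β * MulAut.conj (ι m₀)) (ι x) =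
              (ι m₀)⁻¹ * β (ι (m₀ * x * m₀⁻¹)) * ι m₀ := by simp
          rw [e2, e]
          simpa [mul_assoc] using hU _ hx') _ hsT.2
      simpa [mul_assoc] using h4
  · rintro W _ _ B₁ M₁ U₁ S₁ h₁ κ j rfl t ht
    obtain ⟨g, hg⟩ := exists_conj h₁.toSBP h'.toSBP j
    have hP : U₁.map (κ.comp (MulAut.conj g).toMonoidHom) ≤ U :=
      h.le_U h' hs hU (h₁.pgroup.map _) fun x hx => ⟨_, hg x hx, by simp [mul_assoc]⟩
    have hB : ∀ b ∈ B₁, κ (g * b * g⁻¹) ∈ B := fun b hb =>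
      h.mem_B h' hs hU fun x hx => hP ⟨_, h₁.norm_U' hb (hg x hx), by simp [mul_assoc]⟩
    obtain ⟨m, hm1, a, ha, b, hb, e⟩ := h₁.bruhat (g⁻¹ * j m₀ * g)
    refine ⟨g * a, (hm _).2 ⟨?_, ?_⟩⟩
    · have := hB _ (mul_mem (mul_mem ha ht.1) (inv_mem ha))
      simpa [mul_assoc] using this
    · have := hB _ (mul_mem (mul_mem (inv_mem hb) (h₁.norm' hm1 ht.1 ht.2)) hb)
      have e2 : j m₀ = g * (a * m * b) * g⁻¹ := by rw [← e]; group
      rw [MonoidHom.comp_apply, ← map_inv, ← map_mul, ← map_mul, e2]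
      convert this using 2
      group

/-- the canonical torus -/
theorem RD.torus (h : RD p ρ B M U S) (h' : SBA p B' M' U' S') {ι : X →* Y}
    (hs : Full (ρ.comp ι)) {m₀ : X} (hm₀ : h'.toBN0.Long m₀) : ∃ T, TorP p ι U' m₀ T := by
  obtain ⟨g, hg⟩ := exists_conj h.sba.toSBP h'.toSBP ι
  have h0 := h.torus_aux h' (hs.conj g) (fun u hu => by simpa using hg u hu) hm₀
  generalize B ⊓ B.comap _ = T at h0
  refine ⟨T.comap (MulAut.conj g⁻¹).toMonoidHom, fun x hx y hy => ?_, fun s hs => ?_,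
    fun β h1 h2 s hsT => ?_, ?_⟩
  · have := h0.comm _ hx _ hy
    simp only [MulEquiv.toMonoidHom_eq_coe, MonoidHom.coe_coe, MulAut.conj_apply, inv_inv,
      ← mul_assoc, mul_inv_cancel_right, mul_left_inj] at this
    simpa [mul_assoc] using this
  · obtain ⟨m, hm, e⟩ := h0.ord _ hs
    rw [← map_pow] at e
    exact ⟨m, hm, (MulAut.conj g⁻¹).injective (e.trans (map_one _).symm)⟩
  · have h3 := h0.inv (MulAut.conj g⁻¹ * β * MulAut.conj g) (fun x hx => by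
      obtain ⟨x', hx', e⟩ := h1 x hx
      exact ⟨x', hx', by simp [mul_assoc, e]⟩) (fun x hx => by
      obtain ⟨x', hx', e⟩ := h2 x hx
      refine ⟨x', hx', ?_⟩
      generalize m₀ * x * m₀⁻¹ = a at e
      generalize m₀ * x' * m₀⁻¹ = a' at e
      simp [mul_assoc, e]) _ hsT
    simpa [mem_comap, mul_assoc] using h3
  · rintro W _ _ B₁ M₁ U₁ S₁ h₁ κ j rfl t ht
    exact h0.sub W B₁ M₁ U₁ S₁ h₁ ((MulAut.conj g⁻¹).toMonoidHom.comp κ) j rfl t ht

end Vale.Agent.P183BD
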