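import Mathlib.LinearAlgebra.Matrix.Permutation
import Vale.Agent.P183BD.Torus
import Vale.Agent.P183BD.Weights
import Vale.Agent.P183NK.Defs

/-!
P183: groups of Lie type with a bound: traces, orders, degrees of representations and indices.
-/

namespace Vale.Agent.P183BD

open Subgroup Matrix Vale.Agent.P240.H195 Vale.Agent.P183CR

/-- the traces lie in the field of definition of the torus -/
theorem trace_pow {p n j : ℕ} {k : Type} [Field k] [IsAlgClosed k] [CharP k p] {W : Type}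
    [Group W] [Finite W] {B M U : Subgroup W} {R : Set W} (h : SBA p B M U R)
    {ρ : W →* Matrix (Fin n) (Fin n) k} (hρ : Full ρ)
    (ht : ∀ t ∈ B ⊓ M, t ^ (p ^ j - 1) = 1) (g : W) : trace (ρ g) ^ p ^ j = trace (ρ g) := by
  have : Fact p.Prime := ⟨h.prime⟩
  let F := iterateFrobenius k p j
  have hF := bijective_iterateFrobenius k p j
  let ρ' : W →* Matrix (Fin n) (Fin n) k := F.mapMatrix.toMonoidHom.comp ρ
  have hρ' : Full ρ' := by
    refine ⟨hρ.1, eq_top_iff.2 ?_⟩
    rintro a -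
    obtain ⟨b, rfl⟩ : ∃ b, F.mapMatrix b = a :=
      ⟨a.map (Function.surjInv hF.2), Matrix.ext fun i l => Function.surjInv_eq hF.2 _⟩
    have hx : b ∈ Submodule.span k (Set.range ρ) := hρ.2 ▸ Submodule.mem_top
    induction hx using Submodule.span_induction with
    | mem t ht =>
      obtain ⟨x, rfl⟩ := ht
      exact Submodule.subset_span ⟨x, rfl⟩
    | zero => simp
    | add x y _ _ h1 h2 => rw [map_add]; exact Submodule.add_mem _ h1 h2
    | smul c x _ h1 =>
      have e : F.mapMatrix (c • x) = F c • F.mapMatrix x := Matrix.ext fun i l => by simp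
      rw [e]
      exact Submodule.smul_mem _ _ h1
  obtain ⟨v, hv, hv0⟩ := h.exists_fix hρ.irr
  have key : ∀ g, rep ρ' g (F ∘ v) = F ∘ rep ρ g v := fun g =>
    funext fun i => (RingHom.map_mulVec F (ρ g) v i).symm
  have hsm : ∀ c : k, F ∘ (c • v) = F c • (F ∘ v) := fun c => funext fun i => by simp
  have hinj : ∀ x y : Fin n → k, F ∘ x = F ∘ y → x = y := fun x y e =>
    funext fun i => hF.1 (congrFun e i)
  have hv0' : F ∘ v ≠ 0 := fun e => hv0 (hinj _ _ (by rw [e]; funext i; simp))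
  have hG := h.good hρ.irr
  obtain ⟨e, -, he⟩ := h.exists_equiv hG (h.good hρ'.irr) hv hv0 (v' := F ∘ v)
    (fun u hu => by rw [key, hv u hu]) hv0' (by
      ext g
      constructor
      · rintro ⟨c, hc⟩
        exact mem_lineStab_of hv0' (by rw [key, hc, hsm])
      · rintro ⟨c, hc⟩
        obtain ⟨d, hd⟩ := hF.2 c
        exact mem_lineStab_of hv0 (c := d) (hinj _ _ (by rw [← key, hc, hsm, hd]))) (by
      intro b hb c hc
      obtain ⟨u, hu, t, htB, htN, rfl⟩ := h.split b hb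
      obtain ⟨d, hd⟩ := h.le_lineStab hG hv hv0 htB
      have h1 : c = d := smul_left_injective k hv0 (by
        simp only [← hc]
        rw [rho_mul, hd, map_smul, hv u hu])
      have h2 : ∀ i : ℕ, rep ρ (t ^ i) v = (d : k) ^ i • v := by
        intro i
        induction i with
        | zero => simp
        | succ i ih => rw [pow_succ, rho_mul, hd, map_smul, ih, smul_smul, pow_succ']
      have h3 := h2 (p ^ j - 1)
      rw [ht t ⟨htB, htN⟩, map_one, Module.End.one_apply] at h3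
      have h4 : (d : k) ^ (p ^ j - 1) = 1 :=
        smul_left_injective k hv0 (by simp only [← h3, one_smul])
      have h5 : F c = c := by
        rw [h1, iterateFrobenius_def, ← Nat.sub_add_cancel (Nat.one_le_pow j p h.prime.pos),
          pow_succ, h4, one_mul]
      rw [key, hc, hsm, h5])
  have h6 : e.conj (rep ρ g) = rep ρ' g := by
    refine LinearMap.ext fun x => ?_
    rw [LinearEquiv.conj_apply_apply, he, e.apply_symm_apply]
  have h7 := LinearMap.trace_conj' (rep ρ g) e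
  rw [h6] at h7
  have h8 : trace (ρ' g) = trace (ρ g) :=
    (trace_toLin'_eq _).symm.trans (h7.trans (trace_toLin'_eq _))
  rw [← iterateFrobenius_def, AddMonoidHom.map_trace]
  exact h8

/-- the algebraic closure of the prime field -/
abbrev kk (p : ℕ) [Fact p.Prime] : Type := AlgebraicClosure (ZMod p)

/-- the data of a simple group of Lie type with bound `c` -/
structure LD (c p f n e : ℕ) [Fact p.Prime] {S : Type} [Group S]
    (ρ : S →* Matrix (Fin n) (Fin n) (kk p)) (B M U : Subgroup S) (R : Set S) : Prop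
    extends RD p ρ B M U R where
  inj : Function.Injective ρ
  fpos : 0 < f
  dim : n ≤ c
  epos : 0 < e
  ele : e ≤ c
  exp : ∀ t ∈ B ⊓ M, t ^ (p ^ (f * e) - 1) = 1
  big : ∃ t ∈ B ⊓ M, ∃ j, 0 < j ∧ j ≤ c ∧ p ^ f - 1 ∣ j * orderOf t
  md : ∀ (k : Type) [Field k] [IsAlgClosed k] (m : ℕ) (σ : S →* Matrix (Fin m) (Fin m) k),
    Function.Injective σ → (p : k) ≠ 0 → p ^ f - 1 ≤ c * (m * m)

lemma inj_of_simple {S S' : Type} [Group S] [Monoid S'] [IsSimpleGroup S] (σ : S →* S')
    {g : S} (hg : σ g ≠ 1) : Function.Injective σ := by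
  let K : Subgroup S := σ.toHomUnits.ker
  rcases (MonoidHom.normal_ker σ.toHomUnits).eq_bot_or_eq_top with h | h
  · intro x y hxy
    exact (MonoidHom.ker_eq_bot_iff _).1 h (Units.ext hxy)
  · have : g ∈ σ.toHomUnits.ker := h ▸ mem_top g
    exact absurd (congrArg Units.val this) hg

theorem exists_ld {c : ℕ} {S : Type} [Group S] [Finite S] [IsSimpleGroup S]
    (h : P183NK.IsLie c S) : ∃ (p f n e : ℕ) (_ : Fact p.Prime)
      (ρ : S →* Matrix (Fin n) (Fin n) (kk p)) (B M U : Subgroup S) (R : Set S),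
      LD c p f n e ρ B M U R := by
  obtain ⟨p, f, hp, B, M, U, R, hf, hs, -, -, ⟨e, he0, hec, hexp⟩, hbig,
    ⟨A, hAU, hA0, hA, hAn, hmin, hAc⟩, ⟨n, ρ, v, hn, hv0, hirr, hreg⟩, -⟩ := h
  have hR : R.Nonempty := by
    by_contra hR
    rw [Set.not_nonempty_iff_eq_empty] at hR
    obtain ⟨m, hm, ho⟩ := hs.opp
    rw [hs.span, hR, Subgroup.closure_empty, bot_sup_eq] at hm
    exact hA0 (eq_bot_iff.2 fun x hx => ho x (hAU hx) (hs.normal m hm.1 x (hAU hx)))
  have hsba : SBA p B M U R :=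
    { norm := hs.norm, sub := hs.sub, span := hs.span, sq := hs.sq, mul := hs.mul
      thick := hs.thick, gen := hs.gen, le := hs.le, pgroup := hs.pgroup, normal := hs.normal
      split := hs.split, coprime := hs.coprime, strong := hs.strong, opp := hs.opp
      nonempty := hR, prime := hp.out, comm := hs.comm }
  let ρ' : S →* Matrix (Fin n) (Fin n) (kk p) := (Units.coeHom _).comp ρ
  have : Nontrivial (Fin n → kk p) := ⟨⟨v, 0, hv0⟩⟩
  obtain ⟨s, hs1⟩ := hR
  obtain ⟨t, ht, -, hj, -⟩ := hbig s hs1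
  refine ⟨p, f, n, e, hp, ρ', B, M, U, R, ⟨hsba, full_of_irr ⟨this, hirr⟩, v, hv0, ?_⟩,
    inj_of_simple ρ' (g := s) fun h1 => hsba.not_mem hs1 ((hreg s).2 ⟨1, ?_⟩), hf, hn, he0, hec,
    fun t ht => by rw [pow_mul]; exact hexp t ht, ⟨t, ht, hj⟩, fun k _ _ m σ hσ hk => ?_⟩
  · ext g
    rw [hreg]
    exact ⟨fun ⟨c, hc⟩ => ⟨c, hc⟩, fun ⟨c, hc⟩ => mem_lineStab_of hv0 hc⟩
  · have h2 : (ρ s).1 = 1 := h1
    rw [h2, one_mulVec, one_smul]
  · refine hAc.trans (Nat.mul_le_mul_left _ (index_le_sq σ hσ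
      (fun x hx y hy => hs.comm x hx.1 hx.2 y hy.1 hy.2) hA0 hA (fun x hx => ?_) hAn hmin))
    obtain ⟨i, hi⟩ := hsba.exists_pow (hAU hx)
    exact ⟨p ^ i, by rw [Nat.cast_pow]; exact pow_ne_zero _ hk, hi⟩

namespace LD

variable {c p f n e : ℕ} [Fact p.Prime] {S : Type} [Group S] [Finite S]
  {ρ : S →* Matrix (Fin n) (Fin n) (kk p)} {B M U : Subgroup S} {R : Set S}
  (h : LD c p f n e ρ B M U R)
include h

lemma card_le : Nat.card S ≤ (p ^ f) ^ (c * (c * c)) := by
  have hp := (Fact.out : p.Prime).one_lt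
  have h1 : 1 < p ^ (f * e) := Nat.one_lt_pow (Nat.mul_pos h.fpos h.epos).ne' hp
  refine (card_le_of_trace h.full.2 h1 ρ h.inj ?_).trans ?_
  · rintro y _ ⟨x, rfl⟩
    rw [← map_mul]
    exact trace_pow h.sba h.full h.exp _
  · rw [pow_mul p f e, ← pow_mul (p ^ f)]
    exact Nat.pow_le_pow_right (Nat.pow_pos hp.le)
      (Nat.mul_le_mul h.ele (Nat.mul_le_mul h.dim h.dim))

lemma lt_q {q₀ : ℕ} (hc : q₀ ^ (c * (c * c)) < Nat.card S) : q₀ < p ^ f :=
  lt_of_pow_lt_pow_left₀ _ (Nat.zero_le _) (hc.trans_le h.card_le)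

omit [Finite S] in
/-- representations of small degree are in the defining characteristic -/
lemma char_eq {p' m : ℕ} [Fact p'.Prime] (hm : m ≤ c) (hq : c * (c * c) + 1 < p ^ f)
    (σ : S →* Matrix (Fin m) (Fin m) (kk p')) (hσ : Function.Injective σ) : p = p' := by
  by_contra hne
  have h1 := h.md _ m σ hσ fun h0 => hne ((Nat.prime_dvd_prime_iff_eq Fact.out Fact.out).1
    ((CharP.cast_eq_zero_iff (kk p') p' p).1 h0)).symm
  have h2 := Nat.mul_le_mul_left c (Nat.mul_le_mul hm hm)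
  omega

lemma le_index [IsSimpleGroup S] {K : Subgroup S} (hK : K ≠ ⊤) :
    p ^ f - 1 ≤ c * (K.index * K.index) := by
  let ε : S ⧸ K ≃ Fin K.index := Finite.equivFinOfCardEq rfl
  let σ : S →* Matrix (Fin K.index) (Fin K.index) (AlgebraicClosure ℚ) :=
    permMatrixHom.comp (ε.permCongrHom.toMonoidHom.comp (MulAction.toPermHom S (S ⧸ K)))
  obtain ⟨g, hg⟩ : ∃ g, g ∉ K := by
    by_contra hcon
    push Not at hcon
    exact hK (eq_top_iff.2 fun x _ => hcon x)
  refine h.md _ _ σ (inj_of_simple σ (g := g) fun h1 => hg ?_)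
    (Nat.cast_ne_zero.2 (Fact.out : p.Prime).ne_zero)
  have h0 : σ g = Equiv.Perm.permMatrix (AlgebraicClosure ℚ)
    (ε.permCongr (MulAction.toPerm g))⁻¹ := rfl
  have h2 := congrFun (congrArg (· *ᵥ fun i : Fin K.index => ((i : ℕ) : AlgebraicClosure ℚ)) h1)
    (ε (1 : S))
  simp only [h0, permMatrix_mulVec, one_mulVec, Function.comp_apply, Nat.cast_inj,
    Fin.val_inj, Equiv.Perm.inv_eq_iff_eq, Equiv.permCongr_apply, Equiv.symm_apply_apply,
    MulAction.toPerm_apply, EmbeddingLike.apply_eq_iff_eq] at h2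
  have h4 : ((1 : S) : S ⧸ K) = (g * 1 : S) := h2
  simpa using QuotientGroup.eq.1 h4

/-- proper subgroups have a large index -/
lemma pow_le_index [IsSimpleGroup S] {K : Subgroup S} (hK : K ≠ ⊤) (hq : c * c + 2 < p ^ f) :
    p ^ f ≤ K.index ^ 4 := by
  have h1 := h.le_index hK
  obtain ⟨x, hx⟩ : ∃ x, p ^ f = x + 1 := ⟨p ^ f - 1, by omega⟩
  rw [hx] at h1 hq ⊢
  rw [Nat.add_sub_cancel] at h1
  have hc : 0 < c := h.full.1.trans_le h.dim
  have h2 : x * x ≤ c * c * K.index ^ 4 := by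
    calc x * x ≤ c * (K.index * K.index) * (c * (K.index * K.index)) := Nat.mul_le_mul h1 h1
      _ = _ := by ring
  refine Nat.le_of_mul_le_mul_left (le_trans ?_ h2) (Nat.mul_pos hc hc)
  nlinarith

end LD

end Vale.Agent.P183BD
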