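import Mathlib.FieldTheory.Finite.Basic
import Mathlib.Algebra.Polynomial.Lifts
import Mathlib.GroupTheory.Nilpotent
import Mathlib.GroupTheory.Sylow

/-!
P183: series whose factors are lines over finite fields with pairwise different characters.
-/

namespace Vale.Agent.P183BD

open Subgroup Polynomial

variable {k : Type} [Field k] {p : ℕ}

lemma exists_frob [Fact p.Prime] [CharP k p] {a b : k} {d : ℕ} (hd : 0 < d) (ha : a ^ p ^ d = a)
    (h : ∀ P : ℤ[X], aeval a P = 0 → aeval b P = 0) : ∃ l, b = a ^ p ^ l := by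
  let Q : k[X] := ∏ l ∈ Finset.range d, (X - C (a ^ p ^ l))
  have h1 : Q.map (frobenius k p) = Q := by
    refine mul_right_cancel₀ (X_sub_C_ne_zero (a ^ p ^ 0)) ?_
    have e := Finset.prod_range_succ' (fun l => X - C (a ^ p ^ l)) d
    rw [Finset.prod_range_succ, ha] at e
    simp only [Q, Polynomial.map_prod, Polynomial.map_sub, map_X, map_C, frobenius_def,
      ← pow_mul, ← pow_succ]
    rw [← e, pow_zero, pow_one]
  obtain ⟨P, hP⟩ : Q ∈ lifts (Int.castRingHom k) := by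
    rw [lifts_iff_coeff_lifts]
    intro n
    have h2 : Q.coeff n ^ p = Q.coeff n := by
      conv_rhs => rw [← h1, coeff_map, frobenius_def]
    exact (mem_bot_iff_intCast p k).1 ((Subfield.mem_bot_iff_pow_eq_self k p).2 h2)
  have h2 : ∀ x : k, aeval x P = Q.eval x := fun x => by
    rw [← hP, aeval_def, ← eval_map]
    rfl
  have h3 := h P (by
    rw [h2, eval_prod]
    exact Finset.prod_eq_zero (Finset.mem_range.2 hd) (by simp))
  rw [h2, eval_prod, Finset.prod_eq_zero_iff] at h3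
  obtain ⟨l, -, hl⟩ := h3
  exact ⟨l, by simpa [sub_eq_zero] using hl⟩

variable {S : Type} [Group S]

/-- two functions on `T` are conjugate under a power of the Frobenius map -/
def Gal (p : ℕ) (T : Subgroup S) (f g : S → k) : Prop := ∃ l, ∀ t ∈ T, f t = g t ^ p ^ l

lemma Gal.trans {T : Subgroup S} {f g h : S → k} (h1 : Gal p T f g) (h2 : Gal p T g h) :
    Gal p T f h := by
  obtain ⟨l, hl⟩ := h1
  obtain ⟨l', hl'⟩ := h2
  exact ⟨l' + l, fun t ht => by rw [hl t ht, hl' t ht, ← pow_mul, ← pow_add]⟩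

lemma Gal.symm {T : Subgroup S} {f g : S → k} (h : Gal p T f g) {d : ℕ} (hd : 0 < d)
    (hg : ∀ t ∈ T, g t ^ p ^ d = g t) : Gal p T g f := by
  obtain ⟨l, hl⟩ := h
  obtain ⟨d, rfl⟩ := Nat.exists_eq_add_one_of_ne_zero hd.ne'
  refine ⟨d * l, fun t ht => ?_⟩
  rw [hl t ht, ← pow_mul, ← pow_add, show l + d * l = (d + 1) * l by ring]
  clear hl
  induction l with
  | zero => simp
  | succ l ih => rw [mul_add_one, pow_add, pow_mul, ← ih, hg t ht]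

/-- a series of `U` whose factors are lines on which `T` acts by different characters -/
structure MF (p m : ℕ) (T U : Subgroup S) (D : ℕ → Subgroup S) (κ χ : ℕ → S → k) : Prop where
  zero : D 0 = ⊥
  top : D m = U
  mono : ∀ i < m, D i ≤ D (i + 1)
  norm : ∀ i, ∀ t ∈ T, ∀ x ∈ D i, t * x * t⁻¹ ∈ D i
  add : ∀ i < m, ∀ x ∈ D (i + 1), ∀ y ∈ D (i + 1), κ i (x * y) = κ i x + κ i y
  ker : ∀ i < m, ∀ x ∈ D (i + 1), κ i x = 0 ↔ x ∈ D i
  conj : ∀ i < m, ∀ t ∈ T, ∀ x ∈ D (i + 1), κ i (t * x * t⁻¹) = χ i t * κ i x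
  span : ∀ i < m, ∀ x ∈ D (i + 1), ∀ y ∈ D (i + 1), κ i x ≠ 0 →
    ∃ z ∈ Subring.closure (χ i '' T), κ i y = z * κ i x
  nz : ∀ i < m, ∃ x ∈ D (i + 1), κ i x ≠ 0
  ne : ∀ i < m, ∀ j < m, Gal p T (χ i) (χ j) → i = j

lemma add_one {E : Subgroup S} {ψ : S → k} (h : ∀ x ∈ E, ∀ y ∈ E, ψ (x * y) = ψ x + ψ y) :
    ψ 1 = 0 := by
  simpa using h 1 E.one_mem 1 E.one_mem

lemma add_inv {E : Subgroup S} {ψ : S → k} (h : ∀ x ∈ E, ∀ y ∈ E, ψ (x * y) = ψ x + ψ y) {x : S}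
    (hx : x ∈ E) : ψ x⁻¹ = -ψ x := by
  rw [eq_neg_iff_add_eq_zero, ← h _ (inv_mem hx) _ hx, inv_mul_cancel, add_one h]

/-- pairs of scalars which act simultaneously on the values of `κ` and `ψ` -/
def rel (E : Subgroup S) {κ ψ : S → k} (h : ∀ x ∈ E, ∀ y ∈ E, κ (x * y) = κ x + κ y)
    (h' : ∀ x ∈ E, ∀ y ∈ E, ψ (x * y) = ψ x + ψ y) : Subring (k × k) where
  carrier := {z | ∀ x ∈ E, ∃ y ∈ E, κ y = z.1 * κ x ∧ ψ y = z.2 * ψ x}
  one_mem' x hx := ⟨x, hx, by simp⟩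
  zero_mem' x hx := ⟨1, E.one_mem, by simp [add_one h, add_one h']⟩
  mul_mem' ha hb x hx := by
    obtain ⟨y, hy, e1, e2⟩ := hb x hx
    obtain ⟨z, hz, e3, e4⟩ := ha y hy
    exact ⟨z, hz, by simp [e1, e3, mul_assoc], by simp [e2, e4, mul_assoc]⟩
  add_mem' ha hb x hx := by
    obtain ⟨y, hy, e1, e2⟩ := hb x hx
    obtain ⟨z, hz, e3, e4⟩ := ha x hx
    exact ⟨z * y, mul_mem hz hy, by simp [h z hz y hy, e1, e3, add_mul],
      by simp [h' z hz y hy, e2, e4, add_mul]⟩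
  neg_mem' ha x hx := by
    obtain ⟨y, hy, e1, e2⟩ := ha x hx
    exact ⟨y⁻¹, inv_mem hy, by simp [add_inv h hy, e1], by simp [add_inv h' hy, e2]⟩

namespace MF

variable {m : ℕ} {T U : Subgroup S} {D : ℕ → Subgroup S} {κ χ : ℕ → S → k}
  (h : MF p m T U D κ χ) {i j : ℕ}
include h

lemma le (hij : i ≤ j) (hj : j ≤ m) : D i ≤ D j := by
  induction hij with
  | refl => exact le_rfl
  | step _ ih => exact (ih (by omega)).trans (h.mono _ hj)

lemma le_U (hi : i ≤ m) : D i ≤ U := h.top ▸ h.le hi le_rfl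

/-- the character as a homomorphism -/
def hom (hi : i < m) : T →* k where
  toFun t := χ i t
  map_one' := by
    obtain ⟨x, hx, h0⟩ := h.nz i hi
    exact mul_right_cancel₀ h0 (by simpa using (h.conj i hi 1 T.one_mem x hx).symm)
  map_mul' s t := by
    obtain ⟨x, hx, h0⟩ := h.nz i hi
    refine mul_right_cancel₀ h0 ?_
    rw [mul_assoc, ← h.conj i hi _ t.2 x hx, ← h.conj i hi _ s.2 _ (h.norm _ _ t.2 x hx),
      ← h.conj i hi _ (s * t).2 x hx]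
    simp [mul_assoc]

lemma eq_of_κ (hi : i < m) {x y : S} (hx : x ∈ D (i + 1)) (hy : y ∈ D (i + 1))
    (e : κ i x = κ i y) : x⁻¹ * y ∈ D i := by
  rw [← h.ker i hi _ (mul_mem (inv_mem hx) hy), h.add i hi _ (inv_mem hx) _ hy,
    add_inv (h.add i hi) hx, e, neg_add_cancel]

variable [Finite S]

lemma gen (hi : i < m) : ∃ t₀ ∈ T, ∀ t ∈ T, ∃ n : ℕ, χ i t = χ i t₀ ^ n := by
  have : Finite (h.hom hi).toHomUnits.range := Finite.of_surjective _
    (h.hom hi).toHomUnits.rangeRestrict_surjective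
  obtain ⟨⟨_, t₀, rfl⟩, hg⟩ := IsCyclic.exists_monoid_generator (α := (h.hom hi).toHomUnits.range)
  refine ⟨t₀, t₀.2, fun t ht => ?_⟩
  obtain ⟨n, hn⟩ := hg ⟨_, ⟨t, ht⟩, rfl⟩
  exact ⟨n, (congrArg (fun z : (h.hom hi).toHomUnits.range => (z.1 : k)) hn).symm⟩

omit [Finite S] in
lemma per (hT : p.Coprime (Nat.card T)) (hi : i < m) {t : S} (ht : t ∈ T) :
    χ i t ^ p ^ (Nat.card T).totient = χ i t := by
  have h1 : h.hom hi ⟨t, ht⟩ ^ Nat.card T = 1 := by rw [← map_pow, pow_card_eq_one', map_one]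
  exact (pow_eq_pow_of_modEq (Nat.ModEq.pow_totient hT) h1).trans (pow_one _)

theorem gal [Fact p.Prime] [CharP k p] (hT : p.Coprime (Nat.card T)) (hj : j < m)
    {E : Subgroup S} (hE : E ≤ D (j + 1)) (hn : ∀ t ∈ T, ∀ x ∈ E, t * x * t⁻¹ ∈ E) {ψ f : S → k}
    (h1 : ∀ x ∈ E, ∀ y ∈ E, ψ (x * y) = ψ x + ψ y) (h2 : ∀ x ∈ E, x ∈ D j → ψ x = 0)
    (h3 : ∀ t ∈ T, ∀ x ∈ E, ψ (t * x * t⁻¹) = f t * ψ x) {x : S} (hx : x ∈ E) (h0 : ψ x ≠ 0) :
    Gal p T f (χ j) := by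
  let Λ := rel E (fun x hx y hy => h.add j hj x (hE hx) y (hE hy)) h1
  have k1 : ∀ t ∈ T, (χ j t, f t) ∈ Λ := fun t ht y hy =>
    ⟨_, hn t ht y hy, h.conj j hj t ht y (hE hy), h3 t ht y hy⟩
  have k2 : ∀ z ∈ Λ, z.1 = 0 → z.2 = 0 := fun z hz e => by
    obtain ⟨y, hy, e1, e2⟩ := hz x hx
    rw [e, zero_mul, h.ker j hj y (hE hy)] at e1
    exact (mul_eq_zero.1 (e2.symm.trans (h2 y hy e1))).resolve_right h0
  obtain ⟨t₀, ht₀, hg⟩ := h.gen hj
  obtain ⟨l, hl⟩ := exists_frob (b := f t₀) (Nat.totient_pos.2 Nat.card_pos) (h.per hT hj ht₀)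
    fun P hP => by
      have k3 : aeval (χ j t₀, f t₀) P ∈ Λ := by
        rw [aeval_eq_sum_range]
        exact sum_mem fun n _ => zsmul_mem (pow_mem (k1 _ ht₀) _) _
      exact (aeval_algHom_apply (RingHom.snd k k).toIntAlgHom (χ j t₀, f t₀) P).trans
        (k2 _ k3 ((aeval_algHom_apply (RingHom.fst k k).toIntAlgHom _ P).symm.trans hP))
  refine ⟨l, fun t ht => ?_⟩
  obtain ⟨n, e⟩ := hg t ht
  have k4 := k2 _ (sub_mem (k1 t ht) (pow_mem (k1 _ ht₀) n)) (sub_eq_zero.2 e)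
  rw [e, ← pow_mul, mul_comm, pow_mul, ← hl]
  exact sub_eq_zero.1 k4

omit [Finite S] in
theorem scalar (hj : j < m) {ψ : S → k}
    (h1 : ∀ x ∈ D (j + 1), ∀ y ∈ D (j + 1), ψ (x * y) = ψ x + ψ y) (h2 : ∀ x ∈ D j, ψ x = 0)
    (h3 : ∀ t ∈ T, ∀ x ∈ D (j + 1), ψ (t * x * t⁻¹) = χ j t * ψ x) :
    ∃ c, ∀ x ∈ D (j + 1), ψ x = c * κ j x := by
  obtain ⟨x, hx, h0⟩ := h.nz j hj
  refine ⟨ψ x / κ j x, fun y hy => ?_⟩
  obtain ⟨z, hz, e⟩ := h.span j hj x hx y hy h0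
  have k1 : Subring.closure (χ j '' T) ≤
      (rel _ (h.add j hj) h1).comap ((RingHom.id k).prod (RingHom.id k)) := by
    rw [Subring.closure_le]
    rintro _ ⟨t, ht, rfl⟩ y hy
    exact ⟨_, h.norm _ t ht y hy, h.conj j hj t ht y hy, h3 t ht y hy⟩
  obtain ⟨y', hy', e1, e2⟩ := k1 hz x hx
  have k2 := h2 _ (h.eq_of_κ hj hy' hy (e1.trans e.symm))
  rw [h1 _ (inv_mem hy') _ hy, add_inv h1 hy', neg_add_eq_zero] at k2
  rw [← k2, e2, e]
  field_simp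
  exact mul_comm _ _

end MF

end Vale.Agent.P183BD
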