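import Vale.Agent.P183BD.MF
import Vale.Agent.P183BD.BNG
import Vale.Agent.P240.H195.BNAut

/-!
P183: the outer automorphism group has a solvable subgroup of bounded index.
-/

namespace Vale.Agent.P183BD

open Subgroup Vale.Agent.P240.H195 Vale.Agent.P183CR

/-- a subset of a finite group which is closed under products is a subgroup -/
def mkSub {G : Type} [Group G] [Finite G] (P : G → Prop) (h1 : P 1)
    (hm : ∀ a b, P a → P b → P (a * b)) : Subgroup G where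
  carrier := {a | P a}
  one_mem' := h1
  mul_mem' := hm _ _
  inv_mem' {a} ha := by
    have h2 : ∀ n : ℕ, P (a ^ n) := fun n => by
      induction n with
      | zero => rwa [pow_zero]
      | succ n ih => rw [pow_succ]; exact hm _ _ ih ha
    obtain ⟨n, hn⟩ := mem_powers_iff_mem_zpowers.2 (inv_mem (mem_zpowers a))
    exact hn ▸ h2 n

lemma solv_of_comm {G : Type} [Group G] {H K : Subgroup G} (h : ⁅H, H⁆ ≤ K)
    (hK : Group.IsSolvable K) : Group.IsSolvable H := by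
  have h1 : ∀ x : commutator H, H.subtype x.1 ∈ K := fun x =>
    h (H.map_subtype_commutator ▸ mem_map_of_mem _ x.2)
  have := Group.isSolvable_of_isSolvable_injective
    (f := (H.subtype.comp (commutator H).subtype).codRestrict K h1) fun x y e =>
      Subtype.ext (Subtype.ext (congrArg (fun z : K => z.1) e))
  exact Group.isSolvable_of_ker_le_range (commutator H).subtype Abelianization.of
    (by rw [range_subtype, Abelianization.ker_of])

variable {k : Type} [Field k] {p m : ℕ} [Fact p.Prime] [CharP k p] {S : Type} [Group S] [Finite S]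
  {B N U : Subgroup S} {R : Set S} {D : ℕ → Subgroup S} {κ χ : ℕ → S → k}

/-- automorphisms which preserve `U` and `T` -/
def A0 (T U : Subgroup S) : Subgroup (MulAut S) :=
  mkSub (fun α => (∀ x ∈ U, α x ∈ U) ∧ ∀ t ∈ T, α t ∈ T) ⟨fun _ => id, fun _ => id⟩
    fun _ _ a b => ⟨fun x hx => a.1 _ (b.1 x hx), fun x hx => a.2 _ (b.2 x hx)⟩

/-- automorphisms which preserve the classes of the characters -/
def A1 (p m : ℕ) (T U : Subgroup S) (χ : ℕ → S → k) : Subgroup (MulAut S) :=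
  mkSub (fun α => α ∈ A0 T U ∧ ∀ i < m, Gal p T (fun t => χ i (α t)) (χ i))
    ⟨one_mem _, fun _ _ => ⟨0, fun _ _ => by simp⟩⟩ fun _ _ a b =>
      ⟨mul_mem a.1 b.1, fun i hi => Gal.trans
        ((a.2 i hi).imp fun _ h t ht => h _ (b.1.2 t ht)) (b.2 i hi)⟩

/-- automorphisms which centralise `T` -/
def A2 (T U : Subgroup S) : Subgroup (MulAut S) :=
  mkSub (fun α => (∀ x ∈ U, α x ∈ U) ∧ ∀ t ∈ T, α t = t) ⟨fun _ => id, fun _ _ => rfl⟩
    fun α _ a b => ⟨fun x hx => a.1 _ (b.1 x hx), fun x hx =>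
      (congrArg α (b.2 x hx)).trans (a.2 x hx)⟩

/-- automorphisms which are trivial on the factors of the series -/
def A3 (m : ℕ) (D : ℕ → Subgroup S) (κ : ℕ → S → k) : Subgroup (MulAut S) :=
  mkSub (fun α => ∀ i < m, ∀ x ∈ D (i + 1), α x ∈ D (i + 1) ∧ κ i (α x) = κ i x)
    (fun _ _ _ hx => ⟨hx, rfl⟩) fun _ _ a b i hi x hx =>
      ⟨(a i hi _ (b i hi x hx).1).1, (a i hi _ (b i hi x hx).1).2.trans (b i hi x hx).2⟩

omit [Fact p.Prime] in
lemma frattini0 (h : SBP p B N U R) (α : MulAut S) :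
    ∃ g : S, MulAut.conj g * α ∈ A0 (B ⊓ N) U := by
  obtain ⟨n, hn⟩ := h.toBN0.exists_long
  obtain ⟨g, h1, h2⟩ := conj_pair h h (ι := α.toMonoidHom) α.injective le_rfl hn hn
  let β := MulAut.conj g⁻¹ * α
  have hβ : ∀ x, β x = g⁻¹ * α x * g := fun x => by simp [β]
  have k1 : β ∈ A0 ⊥ U := ⟨fun x hx => hβ x ▸ h1 x hx, fun t ht => by simpa using ht⟩
  have k2 : (MulAut.conj n)⁻¹ * β * MulAut.conj n ∈ A0 ⊥ U :=
    ⟨fun x hx => by simpa [hβ] using h2 x hx, fun t ht => by simp [mem_bot.1 ht]⟩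
  have k3 : ∀ γ ∈ A0 ⊥ U, ∀ b ∈ B, γ b ∈ B := fun γ hγ b hb =>
    h.toSB.mem_B_of_norm h.prime fun u hu => by
      simpa using hγ.1 _ (h.toSB.norm_U' hb ((inv_mem hγ).1 u hu))
  have k4 : ∀ t ∈ B ⊓ N, β t ∈ B := fun t ht => k3 β k1 t ht.1
  refine ⟨g⁻¹, k1.1, fun t ht => ⟨k4 t ht, torus_mem h hn (k4 t ht) ?_⟩⟩
  simpa [mul_assoc, hβ] using k3 _ k2 _ (h.norm' hn.1 ht.1 ht.2)

variable (h : SBA p B N U R) (hm : MF p m (B ⊓ N) U D κ χ)
include h

omit [Finite S] in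
lemma cop : p.Coprime (Nat.card (B ⊓ N : Subgroup S)) :=
  (Nat.Prime.coprime_iff_not_dvd Fact.out).2 h.coprime

include hm

lemma exists_gal {α : MulAut S} (hα : α ∈ A0 (B ⊓ N) U) {i : ℕ} (hi : i < m) :
    ∃ j < m, Gal p (B ⊓ N) (fun t => χ i (α t)) (χ j) := by
  classical
  have hex : ∃ j, j ≤ m ∧ ∃ x ∈ D j, α x ∈ D (i + 1) ∧ κ i (α x) ≠ 0 := by
    obtain ⟨x, hx, h0⟩ := hm.nz i hi
    exact ⟨m, le_rfl, α⁻¹ x, hm.top ▸ (inv_mem hα).1 x (hm.le_U hi hx), by simpa using ⟨hx, h0⟩⟩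
  obtain ⟨h1, x, hx, h2, h3⟩ := Nat.find_spec hex
  obtain e | ⟨j, e⟩ : Nat.find hex = 0 ∨ ∃ j, Nat.find hex = j + 1 :=
    (Nat.find hex).eq_zero_or_eq_succ_pred.imp_right fun e => ⟨_, e⟩
  · rw [e, hm.zero, mem_bot] at hx
    exact absurd (by rw [hx, map_one, add_one (hm.add i hi)]) h3
  rw [e] at hx h1
  refine ⟨j, h1, hm.gal (cop h) h1 (E := D (j + 1) ⊓ (D (i + 1)).comap α.toMonoidHom)
    (ψ := fun x => κ i (α x)) inf_le_left (fun t ht y hy => ⟨hm.norm _ t ht y hy.1, ?_⟩)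
    (fun y hy z hz => ?_) (fun y hy hy' => ?_) (fun t ht y hy => ?_) ⟨hx, h2⟩ h3⟩
  · simpa using hm.norm _ _ (hα.2 t ht) _ hy.2
  · rw [map_mul]
    exact hm.add i hi _ hy.2 _ hz.2
  · by_contra c
    exact Nat.find_min hex (by omega) ⟨by omega, y, hy', hy.2, c⟩
  · simpa using hm.conj i hi _ (hα.2 t ht) _ hy.2

lemma A2_mem {α : MulAut S} (hα : α ∈ A2 (B ⊓ N) U) : ∀ j ≤ m, ∀ x ∈ D j, α x ∈ D j := by
  classical
  intro j hj
  induction j with
  | zero => simp [hm.zero]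
  | succ j ih =>
    have hex : ∃ i, i ≤ m ∧ ∀ x ∈ D (j + 1), α x ∈ D i :=
      ⟨m, le_rfl, fun x hx => hm.top ▸ hα.1 x (hm.le_U hj hx)⟩
    obtain ⟨h1, h2⟩ := Nat.find_spec hex
    refine fun x hx => hm.le (not_lt.1 fun hlt => ?_) hj (h2 x hx)
    obtain ⟨i, e⟩ : ∃ i, Nat.find hex = i + 1 := ⟨Nat.find hex - 1, by omega⟩
    rw [e] at h1 h2
    obtain ⟨y, hy, h3⟩ : ∃ y ∈ D (j + 1), α y ∉ D i := by
      by_contra c
      push Not at c
      exact Nat.find_min hex (by omega) ⟨by omega, c⟩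
    have := hm.ne i h1 j hj (hm.gal (cop h) hj le_rfl (ψ := fun x => κ i (α x)) (hm.norm _)
      (fun y hy z hz => by rw [map_mul]; exact hm.add i h1 _ (h2 y hy) _ (h2 z hz))
      (fun z hz hz' => (hm.ker i h1 _ (h2 z hz)).2 (hm.le (by omega) (by omega) (ih (by omega) z hz')))
      (fun t ht z hz => by simpa [hα.2 t ht] using hm.conj i h1 t ht _ (h2 z hz)) hy
      fun c => h3 ((hm.ker i h1 _ (h2 y hy)).1 c))
    omega

lemma comm_A2 : ⁅A2 (B ⊓ N) U, A2 (B ⊓ N) U⁆ ≤ A3 m D κ := by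
  have key : ∀ α ∈ A2 (B ⊓ N) U, ∀ i < m, ∃ c, ∀ x ∈ D (i + 1), κ i (α x) = c * κ i x :=
    fun α hα i hi => hm.scalar hi (ψ := fun x => κ i (α x))
      (fun y hy z hz => by
        rw [map_mul]
        exact hm.add i hi _ (A2_mem h hm hα _ hi y hy) _ (A2_mem h hm hα _ hi z hz))
      (fun z hz => (hm.ker i hi _ (hm.mono i hi (A2_mem h hm hα _ hi.le z hz))).2
        (A2_mem h hm hα _ hi.le z hz))
      fun t ht z hz => by simpa [hα.2 t ht] using hm.conj i hi t ht _ (A2_mem h hm hα _ hi z hz)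
  refine commutator_le.2 fun α hα β hβ i hi x hx =>
    ⟨A2_mem h hm (mul_mem (mul_mem (mul_mem hα hβ) (inv_mem hα)) (inv_mem hβ)) _ hi x hx, ?_⟩
  obtain ⟨c, hc⟩ := key α hα i hi
  obtain ⟨d, hd⟩ := key β hβ i hi
  have hy := A2_mem h hm (inv_mem (mul_mem hβ hα)) _ hi x hx
  have e2 : x = β (α ((β * α)⁻¹ x)) := by simp
  change κ i (α (β ((β * α)⁻¹ x))) = _
  rw [hc _ (A2_mem h hm hβ _ hi _ hy), hd _ hy]
  conv_rhs => rw [e2, hd _ (A2_mem h hm hα _ hi _ hy), hc _ hy]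
  ring

variable [hS : IsSimpleGroup S]

omit [Fact p.Prime] [CharP k p] in
lemma pgroup_A3 : IsPGroup p (A3 m D κ) := by
  refine IsPGroup.of_card (Nat.eq_prime_pow_of_unique_prime_dvd Nat.card_pos.ne' fun {l} hl hd => ?_)
  by_contra hne
  have := Fact.mk hl
  obtain ⟨⟨α, hα⟩, ho⟩ := exists_prime_orderOf_dvd_card' l hd
  replace ho : orderOf α = l := (orderOf_coe _).trans ho
  have h1 : α ^ l = 1 := ho ▸ pow_orderOf_eq_one α
  have h2 : ∀ j ≤ m, ∀ x ∈ D j, α x = x := by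
    intro j hj
    induction j with
    | zero => simp [hm.zero]
    | succ j ih =>
      intro x hx
      have k1 := hm.eq_of_κ hj hx (hα j hj x hx).1 (hα j hj x hx).2.symm
      have k2 := pow_apply_eq α (x := x) (by group) (ih (by omega) _ k1) l
      rw [h1, MulAut.one_apply, left_eq_mul] at k2
      obtain ⟨n, hn⟩ := h.toSB.exists_pow (hm.le_U (by omega) k1)
      exact (inv_mul_eq_one.1 (mem_bot.1 (mem_of_pow h.prime hl hne hn (mem_bot.2 k2)))).symm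
  rw [h.toSB.eq_one_of_fix hS h.prime hl hne h1 (hm.top ▸ h2 m le_rfl), orderOf_one] at ho
  exact hl.one_lt.ne ho

omit [Fact p.Prime] [Finite S] hm in
lemma center_bot : center S = ⊥ := by
  refine (hS.eq_bot_or_eq_top_of_normal _ inferInstance).resolve_right fun c => ?_
  obtain ⟨s, hs⟩ := h.nonempty
  obtain ⟨b, hb, hb'⟩ := h.thick s hs
  exact hb' (by rwa [mul_assoc, mem_center_iff.1 (c ▸ mem_top s) b, inv_mul_cancel_left])

omit [CharP k p] in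
lemma chi_inj {s t : S} (hs : s ∈ B ⊓ N) (ht : t ∈ B ⊓ N) (e : ∀ i < m, χ i s = χ i t) : s = t := by
  have h0 := mul_mem (inv_mem hs) ht
  have h1 : MulAut.conj (s⁻¹ * t) ∈ A3 m D κ := fun i hi x hx =>
    ⟨hm.norm _ _ h0 x hx, (hm.conj i hi _ h0 x hx).trans (by
      have k1 : hm.hom hi ⟨s, hs⟩ = hm.hom hi ⟨t, ht⟩ := e i hi
      have k2 : χ i (s⁻¹ * t) = hm.hom hi (⟨s, hs⟩⁻¹ * ⟨t, ht⟩) := rfl
      rw [k2, map_mul, ← k1, ← map_mul, inv_mul_cancel, map_one, one_mul])⟩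
  obtain ⟨n, hn⟩ := pgroup_A3 h hm ⟨_, h1⟩
  have h2 : MulAut.conj (s⁻¹ * t) ^ p ^ n = 1 := congrArg Subtype.val hn
  have h3 : (s⁻¹ * t) ^ Nat.card (B ⊓ N : Subgroup S) = 1 :=
    congrArg Subtype.val (pow_card_eq_one' (x := (⟨_, h0⟩ : (B ⊓ N : Subgroup S))))
  have h4 : MulAut.conj (s⁻¹ * t) = 1 := by
    rw [← orderOf_eq_one_iff]
    exact Nat.eq_one_of_dvd_coprimes ((cop h).pow_left n) (orderOf_dvd_of_pow_eq_one h2)
      (orderOf_dvd_of_pow_eq_one (by rw [← map_pow, h3, map_one]))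
  refine inv_mul_eq_one.1 (mem_bot.1 (center_bot h ▸ mem_center_iff.2 fun g => ?_))
  exact (mul_inv_eq_iff_eq_mul.1 (MulEquiv.congr_fun h4 g)).symm

omit [CharP k p] in
lemma comm_A1 : ⁅A1 p m (B ⊓ N) U χ, A1 p m (B ⊓ N) U χ⁆ ≤ A2 (B ⊓ N) U := by
  refine commutator_le.2 fun α hα β hβ => ?_
  have h0 := (mul_mem (mul_mem (mul_mem hα hβ) (inv_mem hα)) (inv_mem hβ)).1
  refine ⟨h0.1, fun t ht => chi_inj h hm (h0.2 t ht) ht fun i hi => ?_⟩
  obtain ⟨a, ha⟩ := hα.2 i hi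
  obtain ⟨b, hb⟩ := hβ.2 i hi
  have hy := (inv_mem (mul_mem hβ hα)).1.2 t ht
  have e2 : t = β (α ((β * α)⁻¹ t)) := by simp
  simp only at ha hb
  change χ i (α (β ((β * α)⁻¹ t))) = _
  rw [ha _ (hβ.1.2 _ hy), hb _ hy]
  conv_rhs => rw [e2, hb _ (hα.1.2 _ hy), ha _ hy]
  ring

theorem exists_J : ∃ A : Subgroup (MulAut S), Group.IsSolvable A ∧
    ((MulAut.conj : S →* MulAut S).range ⊔ A).index ≤ m ^ m := by
  refine ⟨A1 p m (B ⊓ N) U χ, solv_of_comm (comm_A1 h hm) (solv_of_comm (comm_A2 h hm) ?_), ?_⟩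
  · have := (pgroup_A3 h hm).isNilpotent
    infer_instance
  choose g hg using frattini0 h.toSBP
  choose F h1 h2 using fun α (i : Fin m) => exists_gal h hm (hg α) i.2
  have e : m ^ m = Nat.card (Fin m → Fin m) := by simp
  rw [e]
  refine Nat.card_le_card_of_injective (fun q => fun i => (⟨F q.out⁻¹ i, h1 _ i⟩ : Fin m))
    fun q q' hq => ?_
  rw [← q.out_eq, ← q'.out_eq]
  refine QuotientGroup.eq.2 ?_
  have k0 := hg q'.out⁻¹
  have k1 : MulAut.conj (g q.out⁻¹) * q.out⁻¹ * (MulAut.conj (g q'.out⁻¹) * q'.out⁻¹)⁻¹ ∈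
      A1 p m (B ⊓ N) U χ := by
    refine ⟨mul_mem (hg _) (inv_mem k0), fun i hi => ?_⟩
    have k2 : F q.out⁻¹ ⟨i, hi⟩ = F q'.out⁻¹ ⟨i, hi⟩ := congrArg Fin.val (congrFun hq ⟨i, hi⟩)
    obtain ⟨l, hl⟩ := (h2 q.out⁻¹ ⟨i, hi⟩).trans (k2 ▸ (h2 q'.out⁻¹ ⟨i, hi⟩).symm
      (Nat.totient_pos.2 Nat.card_pos) fun t ht => hm.per (cop h) (h1 _ _) ht)
    exact ⟨l, fun t ht => (hl _ ((inv_mem k0).2 t ht)).trans (by simp [mul_assoc])⟩
  have e : q.out⁻¹ * q'.out = (MulAut.conj (g q.out⁻¹))⁻¹ * (MulAut.conj (g q.out⁻¹) * q.out⁻¹ *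
      (MulAut.conj (g q'.out⁻¹) * q'.out⁻¹)⁻¹) * MulAut.conj (g q'.out⁻¹) := by group
  rw [e]
  exact mul_mem (mul_mem (mem_sup_left (inv_mem ⟨_, rfl⟩)) (mem_sup_right k1))
    (mem_sup_left ⟨_, rfl⟩)

end Vale.Agent.P183BD
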