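import Vale.Agent.P183BD.Lie2

/-!
P183: passage to central quotients; irreducible representations with regular highest weight.
-/

namespace Vale.Agent.P183BD

open Subgroup Vale.Agent.P240.H195 Vale.Agent.P183CR Matrix

variable {k : Type} [Field k] {K : Type} [Group K]

theorem exists_irr (d : ℕ) : ∀ (V : Type) [AddCommGroup V] [Module k V] [FiniteDimensional k V]
    (ρ : Representation k K V) (v : V), Module.finrank k V ≤ d → v ≠ 0 →
    ∃ (n : ℕ) (σ : K →* Matrix (Fin n) (Fin n) k) (w : Fin n → k), n ≤ d ∧ Irr (rep σ) ∧ w ≠ 0 ∧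
      ∀ g (c : k), ρ g v = c • v → σ g *ᵥ w = c • w := by
  induction d with
  | zero =>
    intro V _ _ _ ρ v hd hv
    exact absurd (finrank_zero_iff_forall_zero.1 (Nat.le_zero.1 hd) v) hv
  | succ d ih =>
    intro V _ _ _ ρ v hd hv
    by_cases hi : Irr ρ
    · let b := Module.finBasis k V
      have key : ∀ g x, LinearMap.toMatrix b b (ρ g) *ᵥ b.equivFun x = b.equivFun (ρ g x) :=
        fun g x => LinearMap.toMatrix_mulVec_repr b b (ρ g) x
      refine ⟨_, (LinearMap.toMatrixAlgEquiv b).toMonoidHom.comp ρ, b.equivFun v, hd,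
        ⟨⟨_, _, b.equivFun.injective.ne hv⟩, fun W hW => ?_⟩,
        (map_ne_zero_iff _ b.equivFun.injective).2 hv, fun g c e => (key g v).trans ?_⟩
      · refine (hi.2 (W.comap b.equivFun.toLinearMap) fun g x hx => ?_).imp (fun e => ?_) fun e => ?_
        · exact (key g x ▸ hW g _ hx : b.equivFun (ρ g x) ∈ W)
        · rw [← Submodule.map_comap_eq_of_surjective b.equivFun.surjective W, e, Submodule.map_bot]
        · rw [← Submodule.map_comap_eq_of_surjective b.equivFun.surjective W, e, Submodule.map_top,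
            LinearEquiv.range]
      · rw [e, map_smul]
    obtain ⟨W, hW, h0, h1⟩ : ∃ W : Submodule k V, (∀ g, W ≤ W.comap (ρ g)) ∧ W ≠ ⊥ ∧ W ≠ ⊤ := by
      by_contra c
      push Not at c
      exact hi ⟨⟨v, 0, hv⟩, fun W hW => or_iff_not_imp_left.2 (c W hW)⟩
    by_cases hvW : v ∈ W
    · obtain ⟨n, σ, w, k1, k2, k3, k4⟩ := ih W (ρ.subrepresentation W hW) ⟨v, hvW⟩
        (by have := Submodule.finrank_lt h1; omega) fun e => hv (congrArg Subtype.val e)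
      exact ⟨n, σ, w, by omega, k2, k3, fun g c e => k4 g c (Subtype.ext e)⟩
    · obtain ⟨n, σ, w, k1, k2, k3, k4⟩ := ih (V ⧸ W) (ρ.quotient W hW) (Submodule.Quotient.mk v)
        (by
          have := W.finrank_quotient_add_finrank
          have := Submodule.finrank_eq_zero.not.2 h0
          omega) fun e => hvW ((Submodule.Quotient.mk_eq_zero W).1 e)
      exact ⟨n, σ, w, by omega, k2, k3, fun g c e => k4 g c (congrArg Submodule.Quotient.mk e)⟩

variable [Finite K] {S : Type} [Group S] {p : ℕ} {B N U : Subgroup K} {R : Set K} {π : K →* S}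

section
variable (h : SBA p B N U R)
include h

lemma center_le : center K ≤ B ⊓ N := fun z hz => by
  have hB : z ∈ B := h.toSB.mem_B_of_norm h.prime fun u hu => by
    rwa [mul_assoc, mem_center_iff.1 hz u, inv_mul_cancel_left]
  obtain ⟨n, hn⟩ := h.toBN0.exists_long
  exact ⟨hB, torus_mem h.toSBP hn hB (by
    rwa [mul_assoc, ← mem_center_iff.1 hz n, inv_mul_cancel_left])⟩

variable (hk : π.ker ≤ center K)
include hk

lemma mem_map_B {x : K} : π x ∈ B.map π ↔ x ∈ B := by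
  rw [← mem_comap, comap_map_eq_self (hk.trans ((center_le h).trans inf_le_left))]

lemma mem_map_N {x : K} : π x ∈ N.map π ↔ x ∈ N := by
  rw [← mem_comap, comap_map_eq_self (hk.trans ((center_le h).trans inf_le_right))]

lemma map_T : B.map π ⊓ N.map π = (B ⊓ N).map π :=
  le_antisymm (by
    rintro _ ⟨⟨x, hx, rfl⟩, hy⟩
    exact ⟨x, ⟨hx, (mem_map_N h hk).1 hy⟩, rfl⟩) (map_inf_le _ _ _)

lemma conj_map_U {x g : K} (hx : x ∈ U) (hg : π g * π x * (π g)⁻¹ ∈ U.map π) : g * x * g⁻¹ ∈ U :=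
  h.toSB.conj_U h.prime hx ((mem_map_B h hk).1 (by simpa using map_mono h.le hg))

omit [Finite K] in
lemma inj_U {x y : K} (hx : x ∈ U) (hy : y ∈ U) (e : π x = π y) : x = y := by
  obtain ⟨n, -, ho⟩ := h.opp
  have h1 := mul_mem (inv_mem hx) hy
  refine inv_mul_eq_one.1 (ho _ h1 ?_)
  rwa [mem_center_iff.1 (hk (by simp [e] : x⁻¹ * y ∈ π.ker)) n, mul_inv_cancel_right]

theorem sba_map (hπ : Function.Surjective π) : SBA p (B.map π) (N.map π) (U.map π) (π '' R) where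
  norm := by
    rintro _ ⟨n, hn, rfl⟩ _ ⟨t, ht, rfl⟩ h2
    simpa using mem_map_of_mem π (h.norm n hn t ht ((mem_map_N h hk).1 h2))
  sub := by
    rintro _ ⟨s, hs, rfl⟩
    exact mem_map_of_mem π (h.sub s hs)
  span := by rw [map_T h hk, ← MonoidHom.map_closure, ← Subgroup.map_sup, ← h.span]
  sq := by
    rintro _ ⟨s, hs, rfl⟩
    simpa using mem_map_of_mem π (h.sq s hs)
  mul := by
    rintro _ ⟨s, hs, rfl⟩ _ ⟨b, hb, rfl⟩ _ ⟨n, hn, rfl⟩
    refine (h.mul s hs b hb n hn).imp ?_ ?_ <;>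
    · rintro ⟨x, hx, y, hy, e⟩
      exact ⟨_, mem_map_of_mem π hx, _, mem_map_of_mem π hy, by simpa using congrArg π e⟩
  thick := by
    rintro _ ⟨s, hs, rfl⟩
    obtain ⟨b, hb, hb'⟩ := h.thick s hs
    exact ⟨_, mem_map_of_mem π hb, fun c => hb' ((mem_map_B h hk).1 (by simpa using c))⟩
  gen := by rw [← Subgroup.map_sup, h.gen, map_top_of_surjective _ hπ]
  le := map_mono h.le
  pgroup := h.pgroup.map π
  normal := by
    rintro _ ⟨b, hb, rfl⟩ _ ⟨u, hu, rfl⟩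
    simpa using mem_map_of_mem π (h.normal b hb u hu)
  split := by
    rintro _ ⟨b, hb, rfl⟩
    obtain ⟨u, hu, t, h1, h2, rfl⟩ := h.split b hb
    exact ⟨_, mem_map_of_mem π hu, _, mem_map_of_mem π h1, mem_map_of_mem π h2, map_mul _ _ _⟩
  coprime := fun c => h.coprime (c.trans (map_T h hk ▸ card_map_dvd _ _))
  strong := by
    rintro _ ⟨s, hs, rfl⟩ _ ⟨x, hx, rfl⟩ h1 _ ⟨u, hu, rfl⟩
    simpa using mem_map_of_mem π (h.strong s hs x hx (conj_map_U h hk hx h1) u hu)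
  opp := by
    obtain ⟨n, hn, ho⟩ := h.opp
    refine ⟨_, mem_map_of_mem π hn, ?_⟩
    rintro _ ⟨x, hx, rfl⟩ h1
    rw [ho x hx (conj_map_U h hk hx h1), map_one]
  nonempty := h.nonempty.image _
  prime := h.prime
  comm := by
    rintro _ ⟨x, hx, rfl⟩ h1 _ ⟨y, hy, rfl⟩ h2
    rw [← map_mul, ← map_mul, h.comm x hx ((mem_map_N h hk).1 h1) y hy ((mem_map_N h hk).1 h2)]

theorem mf_map {m : ℕ} {D : ℕ → Subgroup K} {κ χ : ℕ → K → k} (hm : MF p m (B ⊓ N) U D κ χ) :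
    ∃ κ' χ' : ℕ → S → k, MF p m (B.map π ⊓ N.map π) (U.map π) (fun i => (D i).map π) κ' χ' ∧
      ∀ i < m, ∀ t ∈ B ⊓ N, χ' i (π t) = χ i t := by
  have h1 : ∀ (H : Subgroup K) (y : S), ∃ x, y ∈ H.map π → x ∈ H ∧ π x = y := fun H y =>
    (em _).elim (fun ⟨x, hx⟩ => ⟨x, fun _ => hx⟩) fun c => ⟨1, fun c' => absurd c' c⟩
  choose s hs using h1
  have hκ : ∀ i < m, ∀ x ∈ D (i + 1), κ i (s U (π x)) = κ i x := fun i hi x hx => by
    have := hs U _ (mem_map_of_mem π (hm.le_U hi hx))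
    rw [inj_U h hk this.1 (hm.le_U hi hx) this.2]
  have hχ : ∀ i < m, ∀ t ∈ B ⊓ N, χ i (s (B ⊓ N) (π t)) = χ i t := fun i hi t ht => by
    obtain ⟨k1, k2⟩ := hs _ _ (mem_map_of_mem π ht)
    obtain ⟨x, hx, h0⟩ := hm.nz i hi
    refine mul_right_cancel₀ h0 ?_
    rw [← hm.conj i hi _ k1 x hx, ← hm.conj i hi _ ht x hx, inj_U h hk
      (hm.le_U hi (hm.norm _ _ k1 x hx)) (hm.le_U hi (hm.norm _ _ ht x hx)) (by simp [k2])]
  refine ⟨fun i y => κ i (s U y), fun i y => χ i (s (B ⊓ N) y), ?_, hχ⟩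
  rw [map_T h hk]
  refine ⟨by simp [hm.zero], by simp [hm.top], fun i hi => map_mono (hm.mono i hi), fun i => ?_,
    fun i hi => ?_, fun i hi => ?_, fun i hi => ?_, fun i hi => ?_, fun i hi => ?_,
    fun i hi j hj ⟨l, hl⟩ => hm.ne i hi j hj ⟨l, fun t ht => ?_⟩⟩
  · rintro _ ⟨t, ht, rfl⟩ _ ⟨x, hx, rfl⟩
    simpa using mem_map_of_mem π (hm.norm i t ht x hx)
  · rintro _ ⟨x, hx, rfl⟩ _ ⟨y, hy, rfl⟩
    rw [← map_mul, hκ i hi _ (mul_mem hx hy), hκ i hi x hx, hκ i hi y hy, hm.add i hi x hx y hy]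
  · rintro _ ⟨x, hx, rfl⟩
    rw [hκ i hi x hx, hm.ker i hi x hx]
    exact ⟨mem_map_of_mem π, fun ⟨y, hy, e⟩ => inj_U h hk (hm.le_U hi.le hy) (hm.le_U hi hx) e ▸ hy⟩
  · rintro _ ⟨t, ht, rfl⟩ _ ⟨x, hx, rfl⟩
    rw [← map_inv, ← map_mul, ← map_mul, hκ i hi _ (hm.norm _ t ht x hx), hκ i hi x hx,
      hχ i hi t ht, hm.conj i hi t ht x hx]
  · rintro _ ⟨x, hx, rfl⟩ _ ⟨y, hy, rfl⟩
    rw [hκ i hi x hx, hκ i hi y hy]
    refine fun h0 => (hm.span i hi x hx y hy h0).imp fun z hz => ⟨Subring.closure_mono ?_ hz.1, hz.2⟩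
    rintro _ ⟨t, ht, rfl⟩
    exact ⟨_, mem_map_of_mem π ht, hχ i hi t ht⟩
  · obtain ⟨x, hx, h0⟩ := hm.nz i hi
    exact ⟨_, mem_map_of_mem π hx, by rwa [hκ i hi x hx]⟩
  · rw [← hχ i hi t ht, ← hχ j hj t ht]
    exact hl _ (mem_map_of_mem π ht)

theorem rd_map [IsAlgClosed k] (hπ : Function.Surjective π) {d : ℕ}
    (ρ : K →* Matrix (Fin d) (Fin d) k) {v : Fin d → k} (hv : v ≠ 0) {l : K → k}
    (hU : ∀ u ∈ U, ρ u *ᵥ v = v) (hT : ∀ t ∈ B ⊓ N, ρ t *ᵥ v = l t • v)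
    (hZ : ∀ z ∈ center K, l z = 1) (hR : ∀ s ∈ R, ∃ t ∈ B ⊓ N, l (s * t * s⁻¹) ≠ l t) :
    ∃ n ≤ d, ∃ σ : S →* Matrix (Fin n) (Fin n) k,
      RD p σ (B.map π) (N.map π) (U.map π) (π '' R) := by
  obtain ⟨n, σ, w, hn, hi, hw, he⟩ := exists_irr d _ (rep ρ) v (by simp) hv
  have h1 : π.ker ≤ σ.toHomUnits.ker := fun z hz => by
    have k1 := he z _ (hT z (center_le h (hk hz)))
    rw [hZ z (hk hz), one_smul] at k1
    have k2 := (hi.2 (LinearMap.eqLocus (rep σ z) LinearMap.id) fun g x hx => by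
      have : rep σ z x = x := hx
      change rep σ z _ = _
      rw [← rho_mul, ← mem_center_iff.1 (hk hz) g, rho_mul, this]
      rfl).resolve_left fun e => hw ((Submodule.eq_bot_iff _).1 e w k1)
    exact Units.ext (toLin'.injective ((LinearMap.eqLocus_eq_top.1 k2).trans toLin'_one.symm))
  let σ' : S →* Matrix (Fin n) (Fin n) k := (Units.coeHom _).comp (π.liftOfSurjective hπ ⟨_, h1⟩)
  have h2 : ∀ g, σ' (π g) = σ g := fun g =>
    congrArg Units.val
      (π.liftOfRightInverse_comp_apply _ (Function.rightInverse_surjInv hπ) ⟨_, h1⟩ g)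
  have hB : B ≤ lineStab (rep σ) w := fun b hb => by
    obtain ⟨u, hu, t, k1, k2, rfl⟩ := h.split b hb
    exact mul_mem (mem_lineStab_of hw (he u 1 ((hU u hu).trans (one_smul _ _).symm)))
      (mem_lineStab_of hw (he t _ (hT t ⟨k1, k2⟩)))
  have h3 : lineStab (rep σ) w = B := by
    rw [← h.toBN0.closure_eq_of h.bruhat hB]
    refine le_antisymm ((closure_le _).2 ?_) fun x hx => subset_closure (Or.inl hx)
    rintro s (hs | ⟨hs, c, hc⟩)
    · exact hs
    obtain ⟨t, ht, hne⟩ := hR s hs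
    have k1 : rep σ (s * t * s⁻¹) w = _ := he _ _ (hT _ ⟨h.norm s (h.sub s hs) t ht.1 ht.2,
      N.mul_mem (N.mul_mem (h.sub s hs) ht.2) (N.inv_mem (h.sub s hs))⟩)
    have k2 : rep σ t w = _ := he _ _ (hT t ht)
    have k3 : rep σ (s * t * s⁻¹) (rep σ s w) = rep σ s (rep σ t w) := by
      rw [← rho_mul, ← rho_mul, inv_mul_cancel_right]
    rw [k2, map_smul, hc, map_smul, k1, smul_comm] at k3
    exact absurd (smul_left_injective k (smul_ne_zero c.ne_zero hw) k3) hne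
  refine ⟨n, hn, σ', sba_map h hk hπ, full_of_irr ⟨hi.1, fun W hW => hi.2 W fun g x hx => ?_⟩,
    w, hw, ?_⟩
  · exact (h2 g ▸ hW (π g) x hx : σ g *ᵥ x ∈ W)
  · ext g
    obtain ⟨g, rfl⟩ := hπ g
    rw [mem_map_B h hk, ← h3, mem_lineStab, mem_lineStab, rep_apply, rep_apply, h2]

end

end Vale.Agent.P183BD
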