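import Vale.Agent.P183BD.Four
import Vale.Agent.P183BD.LieD
import Vale.Agent.P183NC.Node

/-!
P183: trees of nodes of Lie type, auxiliary lemmas.
-/

namespace Vale.Agent.P183BD

open Subgroup Matrix Vale.Agent.P183A Vale.Agent.P183NK Vale.Agent.P183CR

section lattice
variable {L : Type} [Lattice L] {m : ℕ} {P : L → L → Prop}

lemma mt_desc (hm : 0 < m) (π : L → ℕ) {lo hi : L}
    (mono : ∀ u v, lo ≤ u → u ≤ v → v ≤ hi → π u ≤ π v) (j : ℕ) :
    ∀ (D : ℕ) (a b : L), lo ≤ a → b ≤ hi → π b ≤ D → MT m P (j + D) a b →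
      ∃ X Z, a ≤ X ∧ Z ≤ b ∧ MT m P j X Z ∧ π Z ≤ π X := by
  intro D
  induction D with
  | zero => exact fun a b _ _ h3 h => ⟨a, b, le_rfl, le_rfl, h, h3.trans (Nat.zero_le _)⟩
  | succ D ih =>
    rintro a b h1 h2 h3 ⟨a', b', c, z, u, k1, k2, k3, -, k5⟩
    obtain ⟨-, l2, -, l4, l5⟩ := k5 ⟨0, hm⟩
    have e1 := (k1.trans l2).trans l4.lt.le
    by_cases h : π b' ≤ π (z ⟨0, hm⟩)
    · exact ⟨_, _, e1, k3, l5.of_le (Nat.le_add_right _ _), h⟩
    · have h4 := mono b' b (h1.trans (k1.trans k2.le)) k3 h2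
      obtain ⟨X, Z, q1, q2, q3⟩ := ih _ _ (h1.trans (k1.trans l2)) (l5.lt.le.trans (k3.trans h2))
        (by omega) l4
      exact ⟨X, Z, (k1.trans l2).trans q1, q2.trans (l5.lt.le.trans k3), q3⟩

lemma mt_grow (hm : 0 < m) (ψ : L → ℕ) (D : ℕ) {lo hi : L}
    (mono : ∀ u v, lo ≤ u → u ≤ v → v ≤ hi → ψ u ≤ ψ v)
    (step : ∀ v u w, lo ≤ v → v < w → w ≤ hi → P u w → ψ v * D ≤ ψ w) :
    ∀ (R : ℕ) (a b : L), lo ≤ a → b ≤ hi → MT m P R a b → ψ a * D ^ R ≤ ψ b := by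
  intro R
  induction R with
  | zero => exact fun a b h1 h2 h => by simpa using mono a b h1 h.lt.le h2
  | succ R ih =>
    rintro a b h1 h2 ⟨a', b', c, z, u, k1, k2, k3, -, k5⟩
    obtain ⟨-, l2, l3, l4, l5⟩ := k5 ⟨0, hm⟩
    have e1 := (k1.trans l2).trans_lt l4.lt
    have h3 := ih _ _ (h1.trans e1.le) (k3.trans h2) l5
    have h4 := step a _ _ h1 e1 (l5.lt.le.trans (k3.trans h2)) l3
    have h5 := mono b' b (h1.trans (k1.trans k2.le)) k3 h2
    calc ψ a * D ^ (R + 1) = ψ a * D * D ^ R := by ring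
      _ ≤ _ := (Nat.mul_le_mul_right _ h4).trans (h3.trans h5)

end lattice

/-- the lower bound for the order of the field -/
def q0 (c : ℕ) : ℕ := c * (c * c) + c * c + 2

/-- `S` has the data of a group of Lie type with bound `c` -/
def HasLD (c : ℕ) (S : Type) [Group S] : Prop :=
  ∃ (p f n e : ℕ) (_ : Fact p.Prime) (ρ : S →* Matrix (Fin n) (Fin n) (kk p))
    (B M U : Subgroup S) (R : Set S), LD c p f n e ρ B M U R

/-- the family of large groups of Lie type with bound `c` -/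
def PhiL (c : ℕ) : Fam := fun S _ =>
  (∀ [Finite S] [IsSimpleGroup S], HasLD c S) ∧ q0 c ^ (c * (c * c)) < Nat.card S

/-- the socle of `a` is absolutely irreducible on the module of the socle of `z` -/
def GenLie (c : ℕ) : GenT := fun _ _ H a z =>
  ∃ (p f n e : ℕ) (_ : Fact p.Prime) (ρ : EE H z →* Matrix (Fin n) (Fin n) (kk p))
    (B M U : Subgroup (EE H z)) (R : Set (EE H z)), LD c p f n e ρ B M U R ∧
    Submodule.span (kk p) (ρ '' (EE H a).subgroupOf (EE H z)) = ⊤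

lemma lie_node {c p n : ℕ} [Fact p.Prime] (hn : n ≤ c) {W : Type} [Group W] [Finite W]
    [IsSimpleGroup W] (h : PhiL c W) (σ : W →* Matrix (Fin n) (Fin n) (kk p))
    (hσ : Function.Injective σ) : ∃ (f n' e : ℕ) (ρ : W →* Matrix (Fin n') (Fin n') (kk p))
      (B M U : Subgroup W) (R : Set W), LD c p f n' e ρ B M U R ∧ c * c + 2 < p ^ f := by
  obtain ⟨p', f, n', e, hp', ρ, B, M, U, R, hL⟩ := h.1
  have h1 := hL.lt_q h.2
  rw [q0] at h1
  obtain rfl := hL.char_eq hn (by omega) σ hσ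
  exact ⟨f, n', e, ρ, B, M, U, R, hL, by omega⟩

variable {G : Type} [Group G] {H E E' Ty : Subgroup G}

/-- conjugation by elements of `H` -/
def actH (h : Nm H E) : H →* MulAut E :=
  E.normalizerMonoidHom.comp (inclusion (nm_iff.1 h))

lemma actH_coe (h : Nm H E) (a : H) (x : E) : (actH h a x : G) = a * x * (a : G)⁻¹ := rfl

lemma range_incl {n : ℕ} {k : Type} [Field k] (ρ : Ty →* Matrix (Fin n) (Fin n) k) (h : E ≤ Ty) :
    Set.range (ρ.comp (inclusion h)) = ρ '' E.subgroupOf Ty := by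
  ext a
  constructor
  · rintro ⟨x, rfl⟩
    exact ⟨inclusion h x, x.2, rfl⟩
  · rintro ⟨x, hx, rfl⟩
    exact ⟨⟨x, hx⟩, rfl⟩

/-- Frattini argument for the canonical torus -/
lemma frattini [Finite G] {p : ℕ} {B M U : Subgroup E} {R : Set E} (h : SBA p B M U R) {m₀ : E}
    (hm₀ : h.toBN0.Long m₀) (hE : E ≤ Ty) {S : Subgroup Ty} (hS : TorP p (inclusion hE) U m₀ S)
    (h1 : Nm H E) (h2 : Nm H Ty) (a : H) :
    ∃ e ∈ E.subgroupOf Ty, ∀ s ∈ S, e⁻¹ * actH h2 a s * e ∈ S := by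
  obtain ⟨g, k1, k2⟩ := conj_pair h.toSBP h.toSBP (ι := (actH h1 a).toMonoidHom)
    (actH h1 a).injective le_rfl hm₀ hm₀
  have key : ∀ x : E, ((MulAut.conj (inclusion hE g))⁻¹ * actH h2 a) (inclusion hE x) =
      inclusion hE (g⁻¹ * actH h1 a x * g) := fun x => Subtype.ext (by simp [actH_coe])
  refine ⟨inclusion hE g, g.2, fun s hs => ?_⟩
  have h3 := hS.inv ((MulAut.conj (inclusion hE g))⁻¹ * actH h2 a)
    (fun x hx => ⟨_, k1 x hx, key x⟩) (fun x hx => ⟨_, k2 x hx, by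
      rw [key]
      congr 1
      simp [mul_assoc]⟩) s hs
  simpa using h3

/-- invariant subgroups of the socle of the top give nodes -/
lemma node_of_inv [Finite G] {z b' : Subgroup G} (hz : NoMod H z) (hb : NoMod H b') (hzb : z ≤ b')
    (h2 : Nm H Ty) (hbT : EE H b' ≤ Ty) {F : Subgroup Ty}
    (hF : ∀ a, ∀ x ∈ F, actH h2 a x ∈ F) (k1 : (EE H z).subgroupOf Ty ≤ F)
    (k2 : ¬ (EE H b').subgroupOf Ty ≤ F) :
    ∃ v, z ≤ v ∧ v < b' ∧ ∀ s ∈ F, s.1 ∈ b' → s.1 ∈ v := by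
  have hn : Nm H (F.map Ty.subtype ⊓ b') := Nm.inf (by
    rintro a ha _ ⟨x, hx, rfl⟩
    exact ⟨_, hF ⟨a, ha⟩ x hx, rfl⟩) (Nm.of_le hb.lt.le)
  have hle : EE H z ≤ F.map Ty.subtype ⊓ b' := fun x hx =>
    ⟨⟨⟨x, hbT (EE_mono hz hb hzb hx)⟩, k1 hx, rfl⟩, hzb (EE_le hz hx)⟩
  refine ⟨H ⊔ (F.map Ty.subtype ⊓ b'), (sup_EE hz).ge.trans (sup_le_sup_left hle _),
    lt_of_le_of_ne (sup_le hb.lt.le inf_le_right) fun e => k2 ?_,
    fun s hs hsb => mem_sup_right ⟨⟨s, hs, rfl⟩, hsb⟩⟩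
  have h3 : Nm b' (F.map Ty.subtype ⊓ b') := (hn.sup_left (Nm.of_le le_rfl)).mono e.ge
  have h4 := EE_le_of inf_le_right h3 fun h => EE_nle hz (hle.trans h)
  intro x hx
  obtain ⟨y, hy, e⟩ := (h4 hx).1
  rwa [← Subtype.ext e]

end Vale.Agent.P183BD
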